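import Vale.Agent.P167.H704.RecDefs
import Vale.Agent.P167.H318.MK

/-!
# P167, block REC: from type A to type B
-/

namespace Vale.Agent.P167.H704

open Vale.Agent.P167 Vale.Agent.P167.H318 Vale.Agent.P167.H192 Vale.Agent.P167.H558
open MeasureTheory
open Vale.Agent.P167.H632 (sq_inl sq_inr)

/-- the squares of a medial edge are neighbours -/
theorem adj_sq (e : Ed) : (∃ v, e = Sum.inl v ∧ ((hdv e = v ∧ tlv e = (v.1 + 1, v.2)) ∨
      (hdv e = (v.1 + 1, v.2) ∧ tlv e = v))) ∨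
    (∃ v, e = Sum.inr v ∧ ((hdv e = v ∧ tlv e = (v.1, v.2 + 1) ∧ Even (v.1 + v.2)) ∨
      (hdv e = (v.1, v.2 + 1) ∧ tlv e = v))) := by
  rcases e with v | v
  · left
    refine ⟨v, rfl, ?_⟩
    rcases sq_inl v with h | h
    · exact Or.inl ⟨h.1, h.2.1⟩
    · exact Or.inr ⟨h.1, h.2.1⟩
  · right
    refine ⟨v, rfl, ?_⟩
    by_cases h : Even (v.1 + v.2)
    · left
      simp [hdv, tlv, h]
    · right
      simp [hdv, tlv, h]

/-- the observable sees only medial edges of the low zone -/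
theorem wt_low {ψ : ℤ → ℝ} {k : ℕ} {u w h : ℤ} (hk : (k : ℤ) ≤ h)
    (hψ : ∀ x, ψ x ≠ 0 → u - w + 1 ≤ x ∧ x ≤ u + w) {e : Ed} (he : hdv e ∉ Lo u w h) :
    wt ψ k e = 0 := by
  rcases e with v | v
  · by_contra hne
    have h1 : 0 ≤ v.2 ∧ v.2 < k := by
      by_contra h1
      exact hne (if_neg h1)
    have h2 : ψ (v.1 + 1) ≠ 0 := by
      intro h2
      apply hne
      show (if 0 ≤ v.2 ∧ v.2 < k then ψ (v.1 + 1) * (sg (Sum.inl v) : ℝ) else 0) = 0
      rw [h2, zero_mul, ite_self]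
    obtain ⟨h3, h4⟩ := hψ _ h2
    apply he
    rcases sq_inl v with h | h
    · rw [h.1]
      exact ⟨by omega, by omega, h1.1, by omega⟩
    · rw [h.1]
      exact ⟨by dsimp only; omega, by dsimp only; omega, h1.1, by dsimp only; omega⟩
  · rfl

/-- **TRI** with the case of a strand which starts at the flat side of the zone -/
theorem tri4 (S : St) (u w l H x0 ρ : ℤ) (k : ℕ) (ψ : ℤ → ℝ) (ω : Cfg) (hl : 1 ≤ l)
    (hlH : 8 * l ≤ H) (hTA : TA S u w H) (hF : ∀ v ∈ S.F, v ∈ Lo u w H) (hx0 : |x0 - u| + ρ < w)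
    (hk : (k : ℤ) ≤ 4 * l) (hψ : ∀ x, ψ x ≠ 0 → u - w + 1 ≤ x ∧ x ≤ u + w) :
    (∀ ω', J S.D S.e0 ψ k ((S.rv (S.RV (Lo u w (4 * l)) ω) ω).cf ω') = 0) ∨
    (∀ ω', Visit S.D S.e0 0 {v | v ∈ Lo u w (4 * l) ∧ ρ ≤ |v.1 - x0|}
      ((S.rv (S.RV (Lo u w (4 * l)) ω) ω).cf ω')) ∨
    (∃ x, |x - x0| < ρ ∧ TB (S.rv (S.RV (Lo u w (4 * l)) ω) ω) u w (4 * l) H x ∧
      ∀ v ∈ (S.rv (S.RV (Lo u w (4 * l)) ω) ω).F, v ∈ Lo u w H) ∨
    (∃ x, |x - x0| < ρ ∧ S.e0 = Sum.inr (x, -1)) := by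
  classical
  set A : Set (ℤ × ℤ) := Lo u w (4 * l) with hA
  set R := S.RV A ω with hR
  set n := hit S.D S.e0 A (S.cf ω) with hn
  have hS : tlv S.e0 ∉ S.D := hTA.st
  have hAH : ∀ v ∈ A, v ∈ Lo u w H := fun v hv => ⟨hv.1, hv.2.1, hv.2.2.1, by
    have := hv.2.2.2; omega⟩
  have hAD : ∀ v ∈ A, v ∈ S.D := fun v hv => hTA.flat.mem v (hAH v hv)
  -- the path up to the hitting time
  have hp : ∀ ω', (∀ i ≤ n, st S.e0 ((S.rv R ω).cf ω') i = st S.e0 (S.cf ω) i) ∧
      hit S.D S.e0 A ((S.rv R ω).cf ω') = n := by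
    intro ω'
    rw [← cf_glue]
    exact RV_path hS fun q hq => glue_mem (Finset.mem_coe.2 hq)
  rcases Bs.hit_spec hS A (S.cf ω) with hhit | hhit
  swap
  · -- the strand leaves `D` without entering the zone
    left
    intro ω'
    have h1 : ex S.D S.e0 ((S.rv R ω).cf ω') ≤ n := Bs.ex_le (by rw [(hp ω').1 n le_rfl]; exact hhit)
    refine Finset.sum_eq_zero fun i hi => ?_
    rw [Finset.mem_range] at hi
    rw [(hp ω').1 i (by omega)]
    refine wt_low hk hψ ?_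
    exact (Bs.hit_min (show i < hit S.D S.e0 A (S.cf ω) by omega)).1
  set v := hdv (st S.e0 (S.cf ω) n) with hv
  by_cases hfar : ρ ≤ |v.1 - x0|
  · -- far from `x0`
    right; left
    intro ω'
    refine ⟨n, Nat.zero_le _, ?_, ?_⟩
    · have h1 := (hp ω').2
      have h2 : hit S.D S.e0 A ((S.rv R ω).cf ω') ≤ ex S.D S.e0 ((S.rv R ω).cf ω') :=
        Bs.hit_le_ex hS
      rw [h1] at h2
      refine lt_of_le_of_ne h2 fun h3 => ?_
      have h4 := Bs.ex_spec hS ((S.rv R ω).cf ω')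
      rw [← h3, (hp ω').1 n le_rfl] at h4
      exact h4 (hAD _ hhit)
    · rw [(hp ω').1 n le_rfl]
      exact ⟨hhit, hfar⟩
  right; right
  push Not at hfar
  -- the square behind
  have hnA : tlv (st S.e0 (S.cf ω) n) ∉ A := by
    rcases Nat.eq_zero_or_pos n with h0 | h0
    · rw [h0]
      exact fun h => hS (hAD _ h)
    · have h1 := (Bs.hit_min (show n - 1 < hit S.D S.e0 A (S.cf ω) by omega)).1
      rwa [← Bs.tlv_st, show n - 1 + 1 = n by omega] at h1
  have hvA : v ∈ A := hhit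
  obtain ⟨v1, v2, v3, v4⟩ := hvA
  have hab : |v.1 - u| < w := by
    have h1 := abs_sub_le v.1 x0 u
    linarith
  obtain ⟨b1, b2⟩ := abs_lt.1 hab
  rcases adj_sq (st S.e0 (S.cf ω) n) with ⟨t, ht, ⟨h1, h2⟩ | ⟨h1, h2⟩⟩ |
    ⟨t, ht, ⟨h1, h2, h3⟩ | ⟨h1, h2⟩⟩
  · exfalso
    apply hnA
    rw [← hv] at h1
    rw [h2, ← h1]
    exact ⟨by dsimp only; omega, by dsimp only; omega, v3, v4⟩
  · exfalso
    apply hnA
    rw [← hv] at h1
    rw [h1] at v1 v2 v3 v4 b1 b2
    dsimp only at v1 v2 v3 v4 b1 b2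
    rw [h2]
    exact ⟨by omega, by omega, v3, v4⟩
  · -- the strand enters from above
    left
    rw [← hv] at h1
    have h5 : v.2 = 4 * l - 1 := by
      by_contra hne
      apply hnA
      rw [h2, ← h1]
      exact ⟨v1, v2, by dsimp only; omega, by dsimp only; omega⟩
    have hrv := rv_m (S := S) hS (A := A) (R := R) (ω := ω) (Finset.Subset.refl _)
      (fun q hq => ⟨hTA.fresh q (hAH q hq), fun h => RV_notMem h hq⟩)
    obtain ⟨-, hm, htip, hHs⟩ := hrv
    have hvt : v = (v.1, 4 * l - 1) := by rw [← h5]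
    refine ⟨v.1, hfar, ?_, fun q hq => hF q (Finset.mem_sdiff.1 hq).1⟩
    exact
      { toOk := rv_ok hTA.toOk R ω
        flat := ⟨fun q hq => hAD q hq, hTA.flat.not⟩
        fresh := fun q hq => Finset.mem_sdiff.2 ⟨hTA.fresh q (hAH q hq), fun h => RV_notMem h hq⟩
        flat' := hTA.flat
        po := by
          intro q hq
          by_cases hqR : q ∈ R
          · right
            rw [hHs]
            obtain ⟨-, i, hi, hi'⟩ := mem_RV.1 hqR
            exact ⟨i, hi, hi'⟩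
          · exact Or.inl (Finset.mem_sdiff.2 ⟨hTA.fresh q hq, hqR⟩)
        tip := by
          rw [htip]
          show st S.e0 (S.cf ω) n = _
          rw [ht, ← h1, hvt]
        ev := by
          rw [← h1, h5] at h3
          exact h3 }
  · -- the strand starts at the flat side
    right
    rw [← hv] at h1
    have h5 : t.2 = -1 := by
      by_contra hne
      apply hnA
      rw [h1] at v1 v2 v3 v4
      dsimp only at v1 v2 v3 v4
      rw [h2]
      exact ⟨v1, v2, by omega, by omega⟩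
    have h6 : t = (v.1, -1) := by
      have : v.1 = t.1 := by rw [h1]
      rw [this, ← h5]
    have h0 : n = 0 := by
      by_contra hne
      have h7 := (Bs.hit_min (show n - 1 < hit S.D S.e0 A (S.cf ω) by omega)).2
      rw [← Bs.tlv_st, show n - 1 + 1 = n by omega, h2, h6] at h7
      exact hTA.flat.not v.1 v1 v2 h7
    refine ⟨v.1, hfar, ?_⟩
    have h8 : st S.e0 (S.cf ω) n = Sum.inr (v.1, -1) := by rw [ht, h6]
    rw [h0] at h8
    exact h8

end Vale.Agent.P167.H704
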