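import Vale.Agent.P167.H318.Defs

/-!
# P167, block REC: the intermediate statements

`CL` : the bound for states whose fresh squares are exactly the low zone `Lo u (2 w) (T k)`, with the
probability `Lv` that the strand (history included) visits the zone far from `x0`.
-/

namespace Vale.Agent.P167.H704

open Vale.Agent.P167 Vale.Agent.P167.H318
open MeasureTheory

/-- the squares of the low zone far from `x0` -/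
def Zs (u w h x0 ρ : ℤ) : Set (ℤ × ℤ) := {v | v ∈ Lo u (2 * w) h ∧ ρ ≤ |v.1 - x0|}

/-- the strand visits the low zone far from `x0` -/
def Lv (S : St) (u w h x0 ρ : ℤ) : Set Cfg := {ξ | Visit S.D S.e0 0 (Zs u w h x0 ρ) ξ}

/-- **CL** -/
def CL : Prop := ∃ Λ : ℝ, 0 < Λ ∧ ∀ δ : ℝ, 0 < δ → ∃ T K : ℤ, 150 ≤ T ∧
  ∀ (k : ℕ) (w u x0 ρ : ℤ) (S : St) (ψ : ℤ → ℝ), 1 ≤ k → K * k ≤ w → TA S u (2 * w) (T * k) →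
  (∀ v ∈ S.F, v ∈ Lo u (2 * w) (T * k)) →
  (∀ x, u - 2 * w ≤ x → x ≤ u + 2 * w → S.e0 ≠ Sum.inr (x, -1)) →
  4 * (|x0 - u| + ρ) ≤ 7 * w → (∀ x, |ψ x| ≤ 1) →
  (∀ x x', |ψ x - ψ x'| ≤ |(x : ℝ) - x'| / w) → (∀ x, ψ x ≠ 0 → u - w ≤ x ∧ x ≤ u + w) →
  |S.E (J S.D S.e0 ψ k)| ≤ δ * k + Λ * k * S.Pr (Lv S u w (T * k) x0 ρ)

/-- second half (helper950): the beginning -/
def START : Prop := CL → ESC → SM → SYM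

/-- first half (helper704): the recursion -/
def ROUND : Prop := PA → DT → ESC → SM → MR → CL

/-- **BAD** (helper318): on `TJ \ AA` the strand escapes -/
def BAD : Prop := ∃ C α : ℝ, 0 < C ∧ 0 < α ∧ ∀ (S : St) (u w l H x l' : ℤ) (k : ℕ) (ψ : ℤ → ℝ),
  1 ≤ k → 150 * (k : ℤ) ≤ l' → l' ≤ l → 8 * l ≤ H → TB S u w (4 * l) H x →
  (∀ v ∈ S.F, v ∈ Lo u w H) → u - w ≤ x - 20 * l → x + 20 * l ≤ u + w →
  (∀ x, |ψ x| ≤ 1) → (∀ x, ψ x ≠ 0 → u - w + 150 * k ≤ x ∧ x ≤ u + w - 150 * k) →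
  ∫ ω in TJ S u w l x l' \ AA S u w l x l', |J S.D S.e0 ψ k (S.cf ω)| ∂μ ≤
    C * k * ((l' : ℝ) / l) ^ α

/-- **TRI** (helper685): from type A to type B (`w` = half width of the zone); either the strand does
not enter the zone, or it enters it far from `x0`, or the new state has type B -/
def TRI : Prop := ∀ (S : St) (u w l H x0 ρ : ℤ) (k : ℕ) (ψ : ℤ → ℝ) (ω : Cfg), 1 ≤ l → 8 * l ≤ H →
  TA S u w H → (∀ v ∈ S.F, v ∈ Lo u w H) →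
  (∀ x, u - w ≤ x → x ≤ u + w → S.e0 ≠ Sum.inr (x, -1)) → |x0 - u| + ρ < w → (k : ℤ) ≤ 4 * l →
  (∀ x, ψ x ≠ 0 → u - w + 1 ≤ x ∧ x ≤ u + w) →
  (∀ ω', J S.D S.e0 ψ k ((S.rv (S.RV (Lo u w (4 * l)) ω) ω).cf ω') = 0) ∨
  (∀ ω', Visit S.D S.e0 0 {v | v ∈ Lo u w (4 * l) ∧ ρ ≤ |v.1 - x0|}
    ((S.rv (S.RV (Lo u w (4 * l)) ω) ω).cf ω')) ∨
  (∃ x, |x - x0| < ρ ∧ TB (S.rv (S.RV (Lo u w (4 * l)) ω) ω) u w (4 * l) H x ∧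
    ∀ v ∈ (S.rv (S.RV (Lo u w (4 * l)) ω) ω).F, v ∈ Lo u w H)

/-- the inductive claim at height `y` with the constant `a` -/
def Cn (k : ℕ) (w u h0 x0 ρ : ℤ) (ψ : ℤ → ℝ) (Λ a : ℝ) (y : ℤ) : Prop :=
  ∀ S : St, TA S u (2 * w) y → (∀ v ∈ S.F, v ∈ Lo u (2 * w) y) →
    (∀ x, u - 2 * w ≤ x → x ≤ u + 2 * w → S.e0 ≠ Sum.inr (x, -1)) →
    |S.E (J S.D S.e0 ψ k)| ≤ a * k + Λ * k * S.Pr (Lv S u w h0 x0 ρ)

/-- the claim for states of type B whose tip enters at height `4 l` -/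
def Bn (k : ℕ) (w u h0 x0 ρ : ℤ) (ψ : ℤ → ℝ) (Λ a : ℝ) (l : ℤ) : Prop :=
  ∀ (S : St) (x : ℤ), TB S u (2 * w) (4 * l) (16 * l) x → (∀ v ∈ S.F, v ∈ Lo u (2 * w) (16 * l)) →
    (∀ x, u - 2 * w ≤ x → x ≤ u + 2 * w → S.e0 ≠ Sum.inr (x, -1)) →
    |x - x0| < ρ → |S.E (J S.D S.e0 ψ k)| ≤ a * k + Λ * k * S.Pr (Lv S u w h0 x0 ρ)

/-- **RND** (helper318): from type B to type A, `Λ` = bound of the second moment -/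
def RND : Prop := ∀ (k : ℕ) (w u h0 x0 ρ l : ℤ) (ψ : ℤ → ℝ) (Λ a : ℝ), 1 ≤ k → 1 ≤ l →
  (k : ℤ) ≤ 4 * l → 16 * l ≤ h0 → |x0 - u| + ρ < 2 * w →
  (∀ x, ψ x ≠ 0 → u - 2 * w + 1 ≤ x ∧ x ≤ u + 2 * w) → 0 ≤ a → 0 ≤ Λ →
  (∀ S : St, TA S u (2 * w) (4 * l) → |S.E (J S.D S.e0 ψ k)| ≤ Λ * k) →
  Bn k w u h0 x0 ρ ψ Λ a l → Cn k w u h0 x0 ρ ψ Λ a (16 * l)

/-- second moment (helper318): Cauchy-Schwarz form of `SM` -/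
def SM1 : Prop := ∃ Λ : ℝ, 0 < Λ ∧ ∀ (S : St) (u w y : ℤ) (k : ℕ) (ψ : ℤ → ℝ), 1 ≤ k →
  150 * (k : ℤ) ≤ y → TA S u w y → (∀ x, |ψ x| ≤ 1) →
  (∀ x, ψ x ≠ 0 → u - w + 150 * k ≤ x ∧ x ≤ u + w - 150 * k) →
  |S.E (J S.D S.e0 ψ k)| ≤ Λ * k

end Vale.Agent.P167.H704
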