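import Vale.Agent.P167.H632.Prob
import Vale.Agent.P167.H318.Defs

/-!
# P167, block GP: crossings of rectangles, joining

`Hc c a b p q` : horizontal crossing of `[a,b] × [p,q]` by the colour `c`, `Vc` : vertical crossing.
`meet` : a vertical and a horizontal path of one colour which cross the rectangle `[a,b] × [c,d]` have
a common site.
-/

namespace Vale.Agent.P167.H704

open Vale.Agent.P145.FB Vale.Agent.P153 Vale.Agent.P153.Topo Vale.Agent.P167 Vale.Agent.P167.H632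
  Vale.Agent.P167.H871
open MeasureTheory

/-- horizontal crossing -/
def Hc (c : Bool) (a b p q : ℤ) : Set Mk :=
  {ω | ∃ s t : Pt, s.1 = a ∧ t.1 = b ∧ (s.1 + s.2) % 2 = pr c ∧ PConn (cs c ω) (Rect a b p q) s t}

/-- vertical crossing -/
def Vc (c : Bool) (a b p q : ℤ) : Set Mk :=
  {ω | ∃ s t : Pt, s.2 = p ∧ t.2 = q ∧ (s.1 + s.2) % 2 = pr c ∧ PConn (cs c ω) (Rect a b p q) s t}

/-- a path between the levels `r` and `R` of a function with increments at most `1` -/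
theorem cut2 {G Rg : Set Pt} (f : Pt → ℤ) (hf : ∀ u v, PStep G u v → f v ≤ f u + 1) {y y' : Pt}
    {r R : ℤ} (hrR : r ≤ R) (h : PConn G Rg y y') (hy : f y ≤ r) (hy' : R ≤ f y') :
    ∃ z z', f z = r ∧ f z' = R ∧ PConn G (Rg ∩ {w | f w ≤ R}) y z ∧
      PConn G (Rg ∩ {w | r ≤ f w ∧ f w ≤ R}) z z' ∧ PConn G Rg z' y' := by
  have hf' : ∀ u v, PStep G u v → -f v ≤ -f u + 1 := fun u v h => by
    have := hf v u h.symm
    omega
  obtain ⟨z', h1, h2, h3⟩ := pconn_cut_first f hf h (hy.trans hrR) hy'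
  obtain ⟨z, h4, h5, h6⟩ := pconn_cut_first (fun w => -f w) hf' h2.symm (R := -r)
    (by omega) (by omega)
  refine ⟨z, z', by omega, h1, h6.symm, h5.symm.mono subset_rfl ?_, h3⟩
  rintro w ⟨⟨hw1, hw2⟩, hw3⟩
  simp only [Set.mem_ofPred_eq] at hw2 hw3
  exact ⟨hw1, by omega, hw2⟩

theorem row_inc {G : Set Pt} : ∀ u v : Pt, PStep G u v → v.2 ≤ u.2 + 1 := fun _ _ h => by
  have := h.2.1
  omega

theorem col_inc {G : Set Pt} : ∀ u v : Pt, PStep G u v → v.1 ≤ u.1 + 1 := fun _ _ h => by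
  have := h.1
  omega

/-- a vertical and a horizontal crossing of a rectangle by one colour are joined -/
theorem join {F : Set Pt} {e a b c d : ℤ} {s t s' t' : Pt}
    (h : PConn F (Rect a b c d) s t) (hs : s.1 = a) (ht : t.1 = b) (he : (s.1 + s.2) % 2 = e)
    (h' : PConn F (Rect a b c d) s' t') (hs' : s'.2 = c) (ht' : t'.2 = d)
    (he' : (s'.1 + s'.2) % 2 = e) : PConn F (Rect a b c d) s s' := by
  have k := lift h he
  have k' := lift h' he'
  set X := Sc e F ∩ Rect (2 * a) (2 * b) (2 * c) (2 * d) with hX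
  obtain ⟨z, hz, hz'⟩ := cross (A := {z | Conn X (2 * s.1, 2 * s.2) z})
    (B := {z | Conn X (2 * s'.1, 2 * s'.2) z}) (a := 2 * a) (b := 2 * b) (c := 2 * c) (d := 2 * d)
    (fun z hz => (show Conn X _ z from hz).right_mem.2) (fun z hz => (show Conn X _ z from hz).right_mem.2)
    (x := (2 * s.1, 2 * s.2)) (x' := (2 * t.1, 2 * t.2)) (y := (2 * s'.1, 2 * s'.2))
    (y' := (2 * t'.1, 2 * t'.2))
    ((Conn.of_closed k (Conn.refl k.left_mem) fun x y hx _ hy hxy => hx.tail hxy hy).mono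
      Set.inter_subset_right) (by dsimp only; omega) (by dsimp only; omega)
    ((Conn.of_closed k' (Conn.refl k'.left_mem) fun x y hx _ hy hxy => hx.tail hxy hy).mono
      Set.inter_subset_right) (by dsimp only; omega) (by dsimp only; omega)
  have key : Conn X (2 * s.1, 2 * s.2) (2 * s'.1, 2 * s'.2) :=
    (show Conn X _ z from hz).trans (show Conn X _ z from hz').symm
  have hn : ∀ u : Pt, ¬ Ctr (2 * u.1, 2 * u.2) := fun u => not_ctr_left (a := u.1) rfl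
  have hst : ∀ u : Pt, st (2 * u.1, 2 * u.2) = u := by
    intro u
    refine Prod.ext ?_ ?_ <;> simp only [st] <;> omega
  have := (proj (hn s) key).1 (hn s')
  rwa [hst, hst] at this

/-- **A vertical path and a horizontal path of one colour which cross `[a,b] × [c,d]` have a common
site.** -/
theorem meet {F : Set Pt} {e a b c d a' b' c' d' : ℤ} {y y' w w' : Pt}
    (h : PConn F (Rect a b c' d') y y') (hy : y.2 ≤ c) (hy' : d ≤ y'.2) (he : (y.1 + y.2) % 2 = e)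
    (h' : PConn F (Rect a' b' c d) w w') (hw : w.1 ≤ a) (hw' : b ≤ w'.1) (he' : (w.1 + w.2) % 2 = e)
    (hab : a ≤ b) (hcd : c ≤ d) :
    ∃ z, PConn F (Rect a b c' d') y z ∧ PConn F (Rect a' b' c d) w z := by
  obtain ⟨z, z', k1, k2, k3, k4, -⟩ := cut2 (fun w => w.2) row_inc hcd h hy hy'
  obtain ⟨x, x', m1, m2, m3, m4, -⟩ := cut2 (fun w => w.1) col_inc hab h' hw hw'
  have hyR := h.left_mem
  have hy'R := h.right_mem
  have hwR := h'.left_mem
  have hw'R := h'.right_mem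
  rw [mem_rect] at hyR hwR hy'R hw'R
  have k3' : PConn F (Rect a b c' d') y z := k3.mono subset_rfl Set.inter_subset_left
  have m3' : PConn F (Rect a' b' c d) w x := m3.mono subset_rfl Set.inter_subset_left
  have k4' : PConn F (Rect a b c d) z z' := k4.mono subset_rfl (by
    rintro v ⟨hv1, hv2, hv3⟩
    rw [mem_rect] at hv1 ⊢
    omega)
  have m4' : PConn F (Rect a b c d) x x' := m4.mono subset_rfl (by
    rintro v ⟨hv1, hv2, hv3⟩
    rw [mem_rect] at hv1 ⊢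
    omega)
  have j := join m4' m1 m2 (by rw [← m3'.parity, he']) k4' k1 k2 (by rw [← k3'.parity, he])
  refine ⟨z, k3', m3'.trans (j.mono subset_rfl ?_)⟩
  intro v hv
  rw [mem_rect] at hv ⊢
  omega

/-! ### dependence, monotonicity -/

/-- the squares of the rectangle -/
noncomputable def rq (a b p q : ℤ) : Finset Pt := Finset.Icc (a, p) (b, q)

theorem mem_rq {a b p q : ℤ} {v : Pt} : v ∈ rq a b p q ↔ a ≤ v.1 ∧ v.1 ≤ b ∧ p ≤ v.2 ∧ v.2 ≤ q := by
  rw [rq, Finset.mem_Icc, Prod.le_def, Prod.le_def]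
  tauto

theorem congr_rect {F G : Set Pt} {a b p q : ℤ} (h : ∀ v ∈ F, a ≤ v.1 → v.1 < b → p ≤ v.2 →
    v.2 < q → v ∈ G) {u v : Pt} (huv : PConn F (Rect a b p q) u v) : PConn G (Rect a b p q) u v := by
  obtain ⟨h0, h1⟩ := huv
  induction h1 with
  | refl => exact PConn.refl h0
  | @tail x y hx hxy ih =>
    have hxm := ih.right_mem
    have hym := hxy.2
    rw [mem_rect] at hxm hym
    obtain ⟨⟨s1, s2, s3⟩, s4⟩ := hxy
    refine ih.tail ⟨s1, s2, h _ s3 ?_ ?_ ?_ ?_⟩ s4 <;> dsimp only <;> omega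

theorem dep_Hc (c : Bool) (a b p q : ℤ) : Dep (rq a b p q) (Hc c a b p q) := by
  rintro o o' ho ⟨s, t, h1, h2, h3, h4⟩
  refine ⟨s, t, h1, h2, h3, congr_rect (fun v hv m1 m2 m3 m4 => ?_) h4⟩
  show o' v = c
  rw [← ho v (mem_rq.2 ⟨m1, m2.le, m3, m4.le⟩)]
  exact hv

theorem dep_Vc (c : Bool) (a b p q : ℤ) : Dep (rq a b p q) (Vc c a b p q) := by
  rintro o o' ho ⟨s, t, h1, h2, h3, h4⟩
  refine ⟨s, t, h1, h2, h3, congr_rect (fun v hv m1 m2 m3 m4 => ?_) h4⟩
  show o' v = c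
  rw [← ho v (mem_rq.2 ⟨m1, m2.le, m3, m4.le⟩)]
  exact hv

theorem inc_Hc (c : Bool) (a b p q : ℤ) : IncC c (Hc c a b p q) := by
  rintro o o' ho ⟨s, t, h1, h2, h3, h4⟩
  exact ⟨s, t, h1, h2, h3, congr_rect (fun v hv _ _ _ _ => ho v hv) h4⟩

theorem inc_Vc (c : Bool) (a b p q : ℤ) : IncC c (Vc c a b p q) := by
  rintro o o' ho ⟨s, t, h1, h2, h3, h4⟩
  exact ⟨s, t, h1, h2, h3, congr_rect (fun v hv _ _ _ _ => ho v hv) h4⟩

/-- positive association of five events -/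
theorem fkg5 {c : Bool} {F1 F2 F3 F4 F5 : Finset Pt} {A1 A2 A3 A4 A5 : Set Mk} {k : ℝ} (hk : 0 ≤ k)
    (d1 : Dep F1 A1) (d2 : Dep F2 A2) (d3 : Dep F3 A3) (d4 : Dep F4 A4) (d5 : Dep F5 A5)
    (i1 : IncC c A1) (i2 : IncC c A2) (i3 : IncC c A3) (i4 : IncC c A4) (i5 : IncC c A5)
    (h1 : k ≤ μ.real A1) (h2 : k ≤ μ.real A2) (h3 : k ≤ μ.real A3) (h4 : k ≤ μ.real A4)
    (h5 : k ≤ μ.real A5) : k ^ 5 ≤ μ.real (A1 ∩ (A2 ∩ (A3 ∩ (A4 ∩ A5)))) := by
  classical
  have e45 := fkg_c d4 d5 i4 i5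
  have D45 : Dep (F4 ∪ F5) (A4 ∩ A5) :=
    (d4.mono Finset.subset_union_left).inter (d5.mono Finset.subset_union_right)
  have e345 := fkg_c d3 D45 i3 (i4.inter i5)
  have D345 : Dep (F3 ∪ (F4 ∪ F5)) (A3 ∩ (A4 ∩ A5)) :=
    (d3.mono Finset.subset_union_left).inter (D45.mono Finset.subset_union_right)
  have e2345 := fkg_c d2 D345 i2 (i3.inter (i4.inter i5))
  have D2345 : Dep (F2 ∪ (F3 ∪ (F4 ∪ F5))) (A2 ∩ (A3 ∩ (A4 ∩ A5))) :=
    (d2.mono Finset.subset_union_left).inter (D345.mono Finset.subset_union_right)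
  have e12345 := fkg_c d1 D2345 i1 (i2.inter (i3.inter (i4.inter i5)))
  have f4 : k ^ 2 ≤ μ.real (A4 ∩ A5) := by
    refine le_trans ?_ e45
    rw [sq]
    exact mul_le_mul h4 h5 hk (hk.trans h4)
  have f3 : k ^ 3 ≤ μ.real (A3 ∩ (A4 ∩ A5)) := by
    refine le_trans ?_ e345
    rw [pow_succ']
    exact mul_le_mul h3 f4 (by positivity) (hk.trans h3)
  have f2 : k ^ 4 ≤ μ.real (A2 ∩ (A3 ∩ (A4 ∩ A5))) := by
    refine le_trans ?_ e2345
    rw [pow_succ']
    exact mul_le_mul h2 f3 (by positivity) (hk.trans h2)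
  refine le_trans ?_ e12345
  rw [pow_succ']
  exact mul_le_mul h1 f2 (by positivity) (hk.trans h1)

end Vale.Agent.P167.H704
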