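import Vale.Agent.P167.H704.Gate

/-!
# P167, block GP: crossings of rectangles (tubes)

A chain of balls with radial crossings (`HB`) and annuli which are not crossed by the other colour.
-/

namespace Vale.Agent.P167.H704

open Vale.Agent.P145.FB Vale.Agent.P153 Vale.Agent.P153.Topo Vale.Agent.P167 Vale.Agent.P167.H632
  Vale.Agent.P167.H871
open MeasureTheory

theorem congr_sub {F G Rg : Set Pt} {a b p q : ℤ} (hRg : Rg ⊆ Rect a b p q)
    (h : ∀ v ∈ F, v ∈ rq a b p q → v ∈ G) {u v : Pt} (huv : PConn F Rg u v) : PConn G Rg u v := by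
  obtain ⟨h0, h1⟩ := huv
  induction h1 with
  | refl => exact PConn.refl h0
  | @tail x y hx hxy ih =>
    have hxm := hRg ih.right_mem
    have hym := hRg hxy.2
    rw [mem_rect] at hxm hym
    obtain ⟨⟨s1, s2, s3⟩, s4⟩ := hxy
    refine ih.tail ⟨s1, s2, h _ s3 ?_⟩ s4
    rw [mem_rq]
    dsimp only
    omega

/-- the annulus is not crossed by the other colour (plane) -/
def NX (e : Bool) (b : Pt) (r R : ℤ) : Set Mk := {ω | NoX (cs e ω) Set.univ (pr e) b r R}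

theorem an_sub_rect (b : Pt) (r R : ℤ) :
    Set.univ ∩ an b r R ⊆ Rect (b.1 - R) (b.1 + R) (b.2 - R) (b.2 + R) := by
  rintro w ⟨-, hw⟩
  rw [← bl_eq_rect]
  exact hw.2

theorem dep_NX (e : Bool) (b : Pt) (r R : ℤ) :
    Dep (rq (b.1 - R) (b.1 + R) (b.2 - R) (b.2 + R)) (NX e b r R) := by
  intro o o' ho h y y' h1 h2 h3 h4
  refine h y y' h1 h2 h3 (congr_sub (an_sub_rect b r R) (fun v hv hv' => ?_) h4)
  rw [cs_compl] at hv ⊢
  show o v = !e
  rw [ho v hv']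
  exact hv

theorem inc_NX (e : Bool) (b : Pt) (r R : ℤ) : IncC e (NX e b r R) := by
  intro o o' ho h y y' h1 h2 h3 h4
  refine h y y' h1 h2 h3 (h4.mono ?_ subset_rfl)
  intro v hv hv'
  exact hv (ho v hv')

/-- one link of the chain -/
def Lk (e : Bool) (z : Pt) (r R : ℤ) : Set Mk := HB e z r (R + r) ∩ NX e z (2 * r + 1) R

/-- gluing of two links -/
theorem glue2 {e : Bool} {ω : Mk} {z z' : Pt} {r R : ℤ} (hr : 1 ≤ r) (hR : 2 * r + 1 ≤ R)
    (hz : nm (z' - z) ≤ r) (hN : ω ∈ NX e z (2 * r + 1) R) {y y1 x x1 : Pt}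
    (hy : (y.1 + y.2) % 2 = pr e) (hx : (x.1 + x.2) % 2 = pr e) (hy0 : nm (y - z) ≤ r)
    (hy1 : nm (y1 - z) = R + r) (hx0 : nm (x - z') ≤ r) (hx1 : nm (x1 - z') = R + r)
    (h : PConn (cs e ω) Set.univ y y1) (h' : PConn (cs e ω) Set.univ x x1) :
    PConn (cs e ω) (bl z R) y x := by
  have e1 : nm (x - z) ≤ 2 * r := by
    rw [nm_le] at hz hx0 ⊢
    simp only [Prod.fst_sub, Prod.snd_sub] at *
    omega
  have e2 : R ≤ nm (x1 - z) := by
    have hx1' : R + r ≤ nm (x1 - z') := hx1.ge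
    rw [le_nm] at hx1' ⊢
    rw [nm_le] at hz
    simp only [Prod.fst_sub, Prod.snd_sub] at *
    omega
  obtain ⟨v, v1, v2, -⟩ := first_exit (b := z) (R := R) h (by omega) (by omega)
  obtain ⟨v', v1', v2', -⟩ := first_exit (b := z) (R := R) h' (by omega) e2
  exact plane_glue (pr_or e) (by omega) hR hN hy hx (v2.mono subset_rfl Set.inter_subset_right)
    (v2'.mono subset_rfl Set.inter_subset_right) (by omega) (by omega) v1.ge v1'.ge

/-- **the tube** -/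
theorem tube {e : Bool} {ω : Mk} {z : ℕ → Pt} {r R : ℤ} {A : Set Pt} (hr : 1 ≤ r)
    (hR : 2 * r + 1 ≤ R) (hz : ∀ i, nm (z (i + 1) - z i) ≤ r) (n : ℕ)
    (hA : ∀ i < n, bl (z i) R ⊆ A) (h : ∀ i ≤ n, ω ∈ Lk e (z i) r R) :
    ∃ y x : Pt, (y.1 + y.2) % 2 = pr e ∧ nm (y - z 0) ≤ r ∧ nm (x - z n) ≤ r ∧
      (1 ≤ n → PConn (cs e ω) A y x) := by
  have key : ∀ m ≤ n, ∃ y x x1 : Pt, (y.1 + y.2) % 2 = pr e ∧ nm (y - z 0) ≤ r ∧
      (x.1 + x.2) % 2 = pr e ∧ nm (x - z m) ≤ r ∧ nm (x1 - z m) = R + r ∧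
      PConn (cs e ω) Set.univ x x1 ∧ (1 ≤ m → PConn (cs e ω) A y x) := by
    intro m
    induction m with
    | zero =>
      intro hm
      obtain ⟨⟨y, y1, k1, k2, k3, k4⟩, -⟩ := h 0 hm
      exact ⟨y, y, y1, k1, k2, k1, k2, k3, k4.mono subset_rfl (Set.subset_univ _), by omega⟩
    | succ m ih =>
      intro hm
      obtain ⟨y, x, x1, i1, i2, i3, i4, i5, i6, i7⟩ := ih (by omega)
      obtain ⟨⟨u, u1, k1, k2, k3, k4⟩, -⟩ := h (m + 1) hm
      have hN := (h m (by omega)).2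
      have k4' := k4.mono subset_rfl (Set.subset_univ (hp (z (m + 1)) ∩ bl (z (m + 1)) (R + r)))
      have g := (glue2 hr hR (hz m) hN i3 k1 i4 i5 k2 k3 i6 k4').mono subset_rfl (hA m (by omega))
      rcases Nat.eq_zero_or_pos m with rfl | hmp
      · exact ⟨x, u, u1, i3, i4, k1, k2, k3, k4', fun _ => g⟩
      · exact ⟨y, u, u1, i1, i2, k1, k2, k3, k4', fun _ => (i7 hmp).trans g⟩
  obtain ⟨y, x, x1, i1, i2, i3, i4, i5, i6, i7⟩ := key n le_rfl
  exact ⟨y, x, i1, i2, i4, i7⟩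

/-! ### probabilities -/

theorem nx_ge : ∃ K0 : ℤ, 1 ≤ K0 ∧ ∀ (e : Bool) (b : Pt) (r : ℤ), 1 ≤ r →
    (1 / 2 : ℝ) ≤ μ.real (NX e b r (K0 * r)) := by
  obtain ⟨C, α, hC, hα, h⟩ := arm_le
  obtain ⟨n, hn, hn1⟩ : ∃ n : ℕ, C * ((1 : ℝ) / n) ^ α ≤ 1 / 2 ∧ 1 ≤ n := by
    have h1 : Filter.Tendsto (fun n : ℕ => C * ((1 : ℝ) / n) ^ α) Filter.atTop (nhds 0) := by
      have h2 : Filter.Tendsto (fun n : ℕ => (1 : ℝ) / n) Filter.atTop (nhds 0) :=
        tendsto_const_div_atTop_nhds_zero_nat 1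
      have h3 := (h2.rpow_const (p := α) (Or.inr hα.le)).const_mul C
      rw [Real.zero_rpow hα.ne', mul_zero] at h3
      exact h3
    obtain ⟨n, h2, h3⟩ := ((h1.eventually (ge_mem_nhds (show (0 : ℝ) < 1 / 2 by norm_num))).and
      (Filter.eventually_ge_atTop 1)).exists
    exact ⟨n, h2, h3⟩
  refine ⟨n, by exact_mod_cast hn1, fun e b r hr => ?_⟩
  have hr' : (1 : ℝ) ≤ r := by exact_mod_cast hr
  have hn' : (1 : ℝ) ≤ n := by exact_mod_cast hn1
  have hle : r ≤ n * r := by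
    have : (1 : ℤ) ≤ n := by exact_mod_cast hn1
    nlinarith
  have k := h (!e) b r (n * r) hr hle
  have e1 : ((r : ℝ) / ((n * r : ℤ) : ℝ)) = 1 / n := by
    push_cast
    field_simp
  rw [e1] at k
  have hm : MeasurableSet (NX e b r (n * r)) := (dep_NX e b r (n * r)).meas
  have := fair_mu.prob
  have hc : μ.real (NX e b r (n * r))ᶜ ≤ 1 / 2 := by
    refine (measureReal_mono ?_).trans (k.trans hn)
    intro ω hω
    simp only [NX, NoX, Set.mem_compl_iff, Set.mem_ofPred_eq] at hω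
    push Not at hω
    obtain ⟨y, y', h1, h2, h3, h4⟩ := hω
    rw [cs_compl] at h4
    exact ⟨y, y', by rw [h1, pr_not], h2.le, h3.ge, h4.mono subset_rfl (Set.subset_univ _)⟩
  rw [probReal_compl_eq_one_sub hm] at hc
  linarith

theorem lk_ge : ∃ (K0 : ℤ) (c : ℝ), 1 ≤ K0 ∧ 0 < c ∧ c ≤ 1 ∧ ∀ (e : Bool) (z : Pt) (r : ℤ), 1 ≤ r →
    c ≤ μ.real (Lk e z r (K0 * (2 * r + 1))) := by
  obtain ⟨K0, hK0, h1⟩ := nx_ge
  obtain ⟨c, hc, h2⟩ := hb_ge (3 * K0.toNat + 1)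
  have := fair_mu.prob
  refine ⟨K0, min (c * (1 / 2)) 1, hK0, by positivity, min_le_right _ _, fun e z r hr => ?_⟩
  refine (min_le_left _ _).trans (le_trans ?_ (fkg_c (dep_HB e z r (K0 * (2 * r + 1) + r))
    (dep_NX e z (2 * r + 1) (K0 * (2 * r + 1))) (inc_HB _ _ _ _) (inc_NX _ _ _ _)))
  refine mul_le_mul (h2 e z r _ hr ?_ ?_) (h1 e z (2 * r + 1) (by omega)) (by norm_num)
    measureReal_nonneg
  · nlinarith
  · have : ((3 * K0.toNat + 1 : ℕ) : ℤ) = 3 * K0 + 1 := by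
      push_cast
      rw [Int.toNat_of_nonneg (by omega)]
    rw [this]
    nlinarith

/-- probability of a chain -/
theorem chain_ge {e : Bool} {z : ℕ → Pt} {r R : ℤ} {c : ℝ} (hc : 0 ≤ c)
    (h : ∀ i, c ≤ μ.real (Lk e (z i) r R)) (n : ℕ) :
    ∃ F : Finset Pt, Dep F {ω | ∀ i ≤ n, ω ∈ Lk e (z i) r R} ∧
      IncC e {ω | ∀ i ≤ n, ω ∈ Lk e (z i) r R} ∧
      c ^ (n + 1) ≤ μ.real {ω | ∀ i ≤ n, ω ∈ Lk e (z i) r R} := by
  classical
  have hd : ∀ i, ∃ F : Finset Pt, Dep F (Lk e (z i) r R) := fun i =>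
    ⟨_, ((dep_HB e (z i) r (R + r)).mono Finset.subset_union_left).inter
      ((dep_NX e (z i) (2 * r + 1) R).mono Finset.subset_union_right)⟩
  have hi : ∀ i, IncC e (Lk e (z i) r R) := fun i => (inc_HB _ _ _ _).inter (inc_NX _ _ _ _)
  induction n with
  | zero =>
    obtain ⟨F, hF⟩ := hd 0
    have e1 : {ω | ∀ i ≤ 0, ω ∈ Lk e (z i) r R} = Lk e (z 0) r R := by
      ext ω
      simp
    rw [e1]
    exact ⟨F, hF, hi 0, by simpa using h 0⟩
  | succ n ih =>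
    obtain ⟨F, i1, i2, i3⟩ := ih
    obtain ⟨F', hF'⟩ := hd (n + 1)
    have e1 : {ω | ∀ i ≤ n + 1, ω ∈ Lk e (z i) r R} =
        {ω | ∀ i ≤ n, ω ∈ Lk e (z i) r R} ∩ Lk e (z (n + 1)) r R := by
      ext ω
      simp only [Set.mem_ofPred_eq, Set.mem_inter_iff]
      constructor
      · exact fun h => ⟨fun i hi => h i (by omega), h _ le_rfl⟩
      · rintro ⟨h1, h2⟩ i hi
        rcases Nat.lt_or_ge n i with h3 | h3
        · have : i = n + 1 := by omega
          rw [this]; exact h2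
        · exact h1 i h3
    rw [e1]
    refine ⟨F ∪ F', (i1.mono Finset.subset_union_left).inter (hF'.mono Finset.subset_union_right),
      i2.inter (hi _), ?_⟩
    refine le_trans ?_ (fkg_c i1 hF' i2 (hi _))
    rw [pow_succ]
    exact mul_le_mul i3 (h _) hc measureReal_nonneg

/-- **Crossings of rectangles.** -/
theorem rs : RS := by
  intro K
  obtain ⟨K0, c, hK0, hc, hc1, h⟩ := lk_ge
  have := fair_mu.prob
  refine ⟨c ^ (16 * K * K0.toNat + 4), 8 * K0, by positivity, fun e a b p q => ?_⟩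
  have hT : ((16 * K * K0.toNat + 4 : ℕ) : ℤ) = 16 * K * K0 + 4 := by
    push_cast
    rw [Int.toNat_of_nonneg (by omega)]
  -- choice of the radius and of the number of links
  have num : ∀ w s : ℤ, 8 * K0 ≤ s → 0 ≤ w → w ≤ K * s → ∃ (r : ℤ) (n : ℕ), 1 ≤ r ∧
      2 * (K0 * (2 * r + 1)) ≤ s ∧ w + 2 * r ≤ n * r ∧ 1 ≤ n ∧ n + 1 ≤ 16 * K * K0.toNat + 4 := by
    intro w s hs hw hws
    obtain ⟨r, hr⟩ : ∃ r, r = s / (8 * K0) := ⟨_, rfl⟩
    have r1 : 1 ≤ r := by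
      rw [hr, Int.le_ediv_iff_mul_le (by omega)]
      omega
    have r2 : r * (8 * K0) ≤ s := by
      rw [hr]; exact Int.ediv_mul_le s (by omega)
    have r3 : s < (r + 1) * (8 * K0) := by
      rw [hr]; exact Int.lt_ediv_add_one_mul_self s (by omega)
    have n1 : w < (w / r + 1) * r := Int.lt_ediv_add_one_mul_self w (by omega)
    have n2 : w / r * r ≤ w := Int.ediv_mul_le w (by omega)
    have n0 : 0 ≤ w / r := Int.ediv_nonneg hw (by omega)
    refine ⟨r, (w / r + 3).toNat, r1, by nlinarith, ?_, by omega, ?_⟩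
    · rw [Int.toNat_of_nonneg (by omega)]
      nlinarith
    · have : ((w / r + 3).toNat : ℤ) + 1 ≤ ((16 * K * K0.toNat + 4 : ℕ) : ℤ) := by
        rw [Int.toNat_of_nonneg (by omega), hT]
        have : w / r * r ≤ 16 * K * K0 * r := by
          have hK : (0 : ℤ) ≤ K := by positivity
          have : s ≤ 16 * K0 * r := by nlinarith
          nlinarith
        have : w / r ≤ 16 * K * K0 := le_of_mul_le_mul_right this (by omega)
        omega
      exact_mod_cast this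
  constructor
  · intro h1 h2 h3
    obtain ⟨r, n, r1, r2, n1, n2, n3⟩ := num (b - a) (q - p) h1 (by omega) h3
    obtain ⟨m, hm⟩ : ∃ m, m = (p + q) / 2 := ⟨_, rfl⟩
    have key := (chain_ge (e := e) (z := fun i => (a - r + i * r, m)) (r := r)
      (R := K0 * (2 * r + 1)) hc.le (fun i => h e _ r r1) n)
    obtain ⟨F, -, -, key⟩ := key
    refine (pow_le_pow_of_le_one hc.le hc1 n3).trans (key.trans (measureReal_mono ?_))
    intro ω hω
    obtain ⟨R, hR⟩ : ∃ R, R = K0 * (2 * r + 1) := ⟨_, rfl⟩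
    rw [← hR] at hω r2
    have hRr : 2 * r + 1 ≤ R := by rw [hR]; nlinarith
    obtain ⟨y, x, y1, y2, y3, y4⟩ := tube (A := {v | p ≤ v.2 ∧ v.2 ≤ q}) r1 hRr (fun i => by
        rw [nm_le]
        simp only [Prod.fst_sub, Prod.snd_sub]
        push_cast
        refine ⟨by nlinarith, by nlinarith, by omega, by omega⟩) n (fun i _ v hv => by
        rw [mem_bl] at hv
        dsimp only at hv
        simp only [Set.mem_ofPred_eq]
        omega) hω
    rw [nm_le] at y2 y3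
    simp only [Prod.fst_sub, Prod.snd_sub, Nat.cast_zero, zero_mul, add_zero] at y2 y3
    obtain ⟨z, z', k1, k2, k3, k4, -⟩ := cut2 (fun w => w.1) col_inc h2 (y4 n2) (by omega) (by omega)
    refine ⟨z, z', k1, k2, by rw [← k3.parity, y1], k4.mono subset_rfl ?_⟩
    rintro v ⟨⟨v1, v2⟩, v3, v4⟩
    rw [mem_rect]
    exact ⟨v3, v4, v1, v2⟩
  · intro h1 h2 h3
    obtain ⟨r, n, r1, r2, n1, n2, n3⟩ := num (q - p) (b - a) h1 (by omega) h3
    obtain ⟨m, hm⟩ : ∃ m, m = (a + b) / 2 := ⟨_, rfl⟩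
    have key := (chain_ge (e := e) (z := fun i => (m, p - r + i * r)) (r := r)
      (R := K0 * (2 * r + 1)) hc.le (fun i => h e _ r r1) n)
    obtain ⟨F, -, -, key⟩ := key
    refine (pow_le_pow_of_le_one hc.le hc1 n3).trans (key.trans (measureReal_mono ?_))
    intro ω hω
    obtain ⟨R, hR⟩ : ∃ R, R = K0 * (2 * r + 1) := ⟨_, rfl⟩
    rw [← hR] at hω r2
    have hRr : 2 * r + 1 ≤ R := by rw [hR]; nlinarith
    obtain ⟨y, x, y1, y2, y3, y4⟩ := tube (A := {v | a ≤ v.1 ∧ v.1 ≤ b}) r1 hRr (fun i => by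
        rw [nm_le]
        simp only [Prod.fst_sub, Prod.snd_sub]
        push_cast
        refine ⟨by omega, by omega, by nlinarith, by nlinarith⟩) n (fun i _ v hv => by
        rw [mem_bl] at hv
        dsimp only at hv
        simp only [Set.mem_ofPred_eq]
        omega) hω
    rw [nm_le] at y2 y3
    simp only [Prod.fst_sub, Prod.snd_sub, Nat.cast_zero, zero_mul, add_zero] at y2 y3
    obtain ⟨z, z', k1, k2, k3, k4, -⟩ := cut2 (fun w => w.2) row_inc h2 (y4 n2) (by omega) (by omega)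
    refine ⟨z, z', k1, k2, by rw [← k3.parity, y1], k4.mono subset_rfl ?_⟩
    rintro v ⟨⟨v1, v2⟩, v3, v4⟩
    rw [mem_rect]
    exact ⟨v1, v2, v3, v4⟩

end Vale.Agent.P167.H704
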