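import Vale.Agent.P167.H704.Geo

/-!
# P167, block GP: the gate event from the two stages

`gp_of` : `GP` from the two halves `G2a`, `G2b` (H166N/Defs) and the crossing probabilities.
-/

namespace Vale.Agent.P167.H704

open Vale.Agent.P145.FB Vale.Agent.P153 Vale.Agent.P153.Topo Vale.Agent.P167 Vale.Agent.P167.H632
  Vale.Agent.P167.H871 Vale.Agent.P167.H166N Vale.Agent.P167.H558
open MeasureTheory

/-- **The gate** -/
theorem gate_mem (h2a : G2a) {x l : ℤ} (hl : 2 ≤ l) {ω ω' : Cfg} (hE : ω ∈ EE x l)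
    (hW : ω' ∈ WW x l) : glue (↑(∅ ∪ RC (Dq x l) (Sd x l) ω)) ω ω' ∈ H318.GE x l := by
  classical
  obtain ⟨⟨t, t', ht, ht', te, hT⟩, hW2⟩ := hW
  obtain ⟨p, p', w, w2, v, v2, r, r2, c, c2, hp, hp', hw, hw2, hv, hv2, hr, hr2, hc, hc2, pe, we, ve,
    re, ce, kP, kW, kV, kR, kC, o1, o2, o3, o4, o5⟩ := EE.out hl hE
  rw [cs_false] at hT
  simp only [pr, Bool.false_eq_true, if_false] at te
  obtain ⟨e, he1, he2, he3, he4, he5, he6⟩ := h2a (Dq x l) ∅ (Sd x l)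
    (Rect (x - l) (x + 3 * l) (2 * l) (3 * l)) (x + 2 * l) (x + 3 * l) (2 * l) (3 * l) ω ω' p' t t'
    (by omega) (by omega) (by rintro b ⟨h1, h2, h3, h4⟩; exact ⟨h1, by omega⟩)
    (by intro q hq h1 h2; rw [mem_Dq] at hq; omega) (by simp)
    (oc_trans o1 kP) (by omega) (by intro s hs; rw [mem_rect] at hs; omega) te (by omega)
    (by omega) hT
  set R : Finset Pt := ∅ ∪ RC (Dq x l) (Sd x l) ω with hR
  have hRd : ∀ v ∈ R, v ∈ Dq x l := by
    intro v hv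
    rw [hR, Finset.empty_union, RC, Finset.mem_filter] at hv
    exact hv.1
  have hω : ∀ q ∈ RC (Dq x l) (Sd x l) ω, glue (↑R) ω ω' q = ω q := by
    intro q hq
    refine glue_mem ?_
    rw [Finset.mem_coe, hR, Finset.empty_union]
    exact hq
  refine ⟨e, ⟨by omega, by omega, by omega, by omega⟩, ⟨by omega, by omega, by omega, by omega⟩,
    ?_, ?_⟩
  · obtain ⟨a, p, c, h1, h2, h3, h4, h5, h6, h7, h8, h9⟩ := open_half hl hE he1 he2 he3
    exact ⟨a, p, c, h2, h3, h4, h5, h6, (oc_tr he1 h7 hω).mono Set.inter_subset_left subset_rfl,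
      (oc_tr h1 h8 hω).mono Set.inter_subset_left subset_rfl,
      (oc_tr h1 h9 hω).mono Set.inter_subset_left subset_rfl⟩
  · have hrs := rs_hdv e
    obtain ⟨⟨a1, a2, a3, a4, a5, a6⟩, ⟨b1, b2, b3, b4, b5, b6⟩, ⟨c1, c2, c3, c4, c5, c6⟩,
      ⟨d1, d2, d3, d4, d5, d6⟩⟩ := hW2
    exact dual_half hl ht te (by omega) he6
      ⟨a1, a2, a3, a4, a5, dual_tr hRd (fun v _ _ _ _ h => by rw [mem_Dq] at h; omega) a6⟩
      ⟨b1, b2, b3, b4, b5, dual_tr hRd (fun v _ _ _ _ h => by rw [mem_Dq] at h; omega) b6⟩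
      ⟨c1, c2, c3, c4, c5, dual_tr hRd (fun v _ _ _ _ h => by rw [mem_Dq] at h; omega) c6⟩
      ⟨d1, d2, d3, d4, d5, dual_tr hRd (fun v _ _ _ _ h => by rw [mem_Dq] at h; omega) d6⟩

/-- lower bounds for crossings of rectangles with sides of comparable length -/
def RS : Prop := ∀ K : ℕ, ∃ (c : ℝ) (n0 : ℤ), 0 < c ∧ ∀ (e : Bool) (a b p q : ℤ),
  (n0 ≤ q - p → a ≤ b → b - a ≤ K * (q - p) → c ≤ μ.real (Hc e a b p q)) ∧
  (n0 ≤ b - a → p ≤ q → q - p ≤ K * (b - a) → c ≤ μ.real (Vc e a b p q))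

theorem dep_meas {F : Finset Pt} {A : Set Mk} (h : Dep F A) : MeasurableSet A := h.meas

/-- **GP** from its parts -/
theorem gp_of (h2a : G2a) (h2b : G2b) (hr : RS) : H318.GP := by
  obtain ⟨c, n0, hc, h⟩ := hr 20
  refine ⟨c ^ 5 * c ^ 5, max 2 n0 + 4, by positivity, fun x l hl => ?_⟩
  have hl2 : 2 ≤ l := by have := le_max_left 2 n0; omega
  have hl0 : n0 + 4 ≤ l := by have := le_max_right 2 n0; omega
  have hE : c ^ 5 ≤ μ.real (EE x l) :=
    fkg5 hc.le (dep_Vc _ _ _ _ _) (dep_Hc _ _ _ _ _) (dep_Hc _ _ _ _ _) (dep_Hc _ _ _ _ _)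
      (dep_Vc _ _ _ _ _) (inc_Vc _ _ _ _ _) (inc_Hc _ _ _ _ _) (inc_Hc _ _ _ _ _)
      (inc_Hc _ _ _ _ _) (inc_Vc _ _ _ _ _)
      ((h _ _ _ _ _).2 (by omega) (by omega) (by push_cast; omega))
      ((h _ _ _ _ _).1 (by omega) (by omega) (by push_cast; omega))
      ((h _ _ _ _ _).1 (by omega) (by omega) (by push_cast; omega))
      ((h _ _ _ _ _).1 (by omega) (by omega) (by push_cast; omega))
      ((h _ _ _ _ _).2 (by omega) (by omega) (by push_cast; omega))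
  have hW : c ^ 5 ≤ μ.real (WW x l) :=
    fkg5 hc.le (dep_Hc _ _ _ _ _) (dep_Vc _ _ _ _ _) (dep_Vc _ _ _ _ _) (dep_Hc _ _ _ _ _)
      (dep_Vc _ _ _ _ _) (inc_Hc _ _ _ _ _) (inc_Vc _ _ _ _ _) (inc_Vc _ _ _ _ _)
      (inc_Hc _ _ _ _ _) (inc_Vc _ _ _ _ _)
      ((h _ _ _ _ _).1 (by omega) (by omega) (by push_cast; omega))
      ((h _ _ _ _ _).2 (by omega) (by omega) (by push_cast; omega))
      ((h _ _ _ _ _).2 (by omega) (by omega) (by push_cast; omega))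
      ((h _ _ _ _ _).1 (by omega) (by omega) (by push_cast; omega))
      ((h _ _ _ _ _).2 (by omega) (by omega) (by push_cast; omega))
  have mW : MeasurableSet (WW x l) :=
    (dep_meas (dep_Hc _ _ _ _ _)).inter ((dep_meas (dep_Vc _ _ _ _ _)).inter
      ((dep_meas (dep_Vc _ _ _ _ _)).inter ((dep_meas (dep_Hc _ _ _ _ _)).inter
        (dep_meas (dep_Vc _ _ _ _ _)))))
  have := h2b (Dq x l) ∅ (Sd x l) (EE x l) (WW x l) (H318.GE x l)
    (fun ω ω' hω hωω' => EE_det hl2 hω (fun q hq => hωω' q (Finset.mem_union_right _ hq))) mW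
    (fun ω hω ω' hω' => gate_mem h2a hl2 hω hω')
  exact (mul_le_mul hE hW (by positivity) measureReal_nonneg).trans this

end Vale.Agent.P167.H704
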