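import Vale.Agent.P167.H704.Rc
import Vale.Agent.P167.H166N.Defs

/-!
# P167, block GP: the gate from ten crossings of rectangles

`EE x l` : five open crossings (an inverted U east of, above and west of the tip), explored first;
`WW x l` : five dual crossings of the fresh configuration.
-/

namespace Vale.Agent.P167.H704

open Vale.Agent.P145.FB Vale.Agent.P153 Vale.Agent.P153.Topo Vale.Agent.P167 Vale.Agent.P167.H632
  Vale.Agent.P167.H871 Vale.Agent.P167.H166N Vale.Agent.P167.H558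
open MeasureTheory

/-- the open crossings -/
def EE (x l : ℤ) : Set Mk :=
  Vc true (x + 2 * l) (x + 3 * l) 0 (8 * l) ∩ (Hc true (x + 2 * l) (x + 3 * l) (3 * l) (4 * l - 1) ∩
    (Hc true (x + 2 * l) (x + 3 * l) l (2 * l) ∩ (Hc true (x - 3 * l) (x + 3 * l) (6 * l) (8 * l) ∩
      Vc true (x - 3 * l) (x - 2 * l) (4 * l) (8 * l))))

/-- the dual crossings -/
def WW (x l : ℤ) : Set Mk :=
  Hc false (x - l) (x + 3 * l) (2 * l) (3 * l) ∩ (Vc false (x - l) (x - 1) 0 (4 * l) ∩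
    (Vc false (x - l) (x - 1) l (6 * l - 1) ∩ (Hc false (x - l) (x + l) (4 * l) (6 * l - 1) ∩
      Vc false (x + 2) (x + l) (4 * l) (6 * l - 1))))

/-- the squares which are explored -/
noncomputable def Dq (x l : ℤ) : Finset Pt :=
  (rq (x - 3 * l) (x + 3 * l) 0 (8 * l)).filter fun q => q.1 < x + 3 * l ∧ q.2 < 8 * l ∧
    (x + 2 * l ≤ q.1 ∨ 6 * l ≤ q.2 ∨ (q.1 < x - 2 * l ∧ 4 * l ≤ q.2))

theorem mem_Dq {x l : ℤ} {q : Pt} : q ∈ Dq x l ↔ x - 3 * l ≤ q.1 ∧ q.1 < x + 3 * l ∧ 0 ≤ q.2 ∧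
    q.2 < 8 * l ∧ (x + 2 * l ≤ q.1 ∨ 6 * l ≤ q.2 ∨ (q.1 < x - 2 * l ∧ 4 * l ≤ q.2)) := by
  rw [Dq, Finset.mem_filter, mem_rq]
  omega

/-- the seeds -/
def Sd (x l : ℤ) : Set Pt := {b | (b.1 + b.2) % 2 = 0 ∧ b.2 = 0 ∧ x + 2 * l ≤ b.1 ∧ b.1 ≤ x + 3 * l}

/-- the sites which can be reached -/
def Zd (x l : ℤ) : Set Pt :=
  {v | 0 ≤ v.2 ∧ v.2 ≤ 8 * l ∧ x - 3 * l ≤ v.1 ∧ v.1 ≤ x + 3 * l ∧
    (x + 2 * l ≤ v.1 ∨ 6 * l ≤ v.2 ∨ (v.1 ≤ x - 2 * l ∧ 4 * l ≤ v.2))}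

/-! ### the cluster -/

theorem oc_base {D : Finset Pt} {B : Set Pt} {ω : Cfg} {b : Pt} (hb : b ∈ B) : b ∈ OC D B ω :=
  ⟨b, hb, PConn.refl (Set.mem_univ _)⟩

theorem oc_trans {D : Finset Pt} {B Rg : Set Pt} {ω : Cfg} {u v : Pt} (hu : u ∈ OC D B ω)
    (h : PConn (op ω ∩ ↑D) Rg u v) : v ∈ OC D B ω := by
  obtain ⟨b, hb, h1⟩ := hu
  exact ⟨b, hb, h1.trans (h.mono subset_rfl (Set.subset_univ _))⟩

theorem oc_tr {D : Finset Pt} {B Rg : Set Pt} {ω ω' : Cfg} {u v : Pt} (hu : u ∈ OC D B ω)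
    (h : PConn (op ω ∩ ↑D) Rg u v) (hω : ∀ q ∈ RC D B ω, ω' q = ω q) :
    PConn (op ω' ∩ ↑D) Rg u v := by
  classical
  obtain ⟨h0, h1⟩ := h
  induction h1 with
  | refl => exact PConn.refl h0
  | @tail y z hy hyz ih =>
    have hyo : y ∈ OC D B ω := oc_trans hu ⟨h0, hy⟩
    obtain ⟨⟨s1, s2, s3, s4⟩, s5⟩ := hyz
    refine ih.tail ⟨s1, s2, ?_, s4⟩ s5
    have hq : (min y.1 z.1, min y.2 z.2) ∈ RC D B ω := by
      rw [RC, Finset.mem_filter]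
      exact ⟨s4, y, hyo, z, s1, s2, rfl⟩
    show ω' _ = true
    rw [hω _ hq]
    exact s3

theorem in_Zd {x l : ℤ} {F : Set Pt} {b s : Pt} (hb : b ∈ Zd x l)
    (h : PConn (F ∩ ↑(Dq x l)) Set.univ b s) : PConn (F ∩ ↑(Dq x l)) (Zd x l) b s := by
  obtain ⟨-, h1⟩ := h
  induction h1 with
  | refl => exact PConn.refl hb
  | @tail y z hy hyz ih =>
    obtain ⟨⟨s1, s2, s3, s4⟩, s5⟩ := hyz
    refine ih.tail ⟨s1, s2, s3, s4⟩ ?_
    rw [Finset.mem_coe, mem_Dq] at s4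
    dsimp only at s4
    simp only [Zd, Set.mem_ofPred_eq]
    omega

/-- a crossing in `Dq` -/
theorem toD {x l a b p q : ℤ} {ω : Cfg} {s t : Pt} (h : PConn (cs true ω) (Rect a b p q) s t)
    (hd : ∀ v : Pt, a ≤ v.1 → v.1 < b → p ≤ v.2 → v.2 < q → v ∈ Dq x l) :
    PConn (op ω ∩ ↑(Dq x l)) (Rect a b p q) s t :=
  congr_rect (F := cs true ω) (fun v hv h1 h2 h3 h4 => (⟨hv, hd v h1 h2 h3 h4⟩ :
    v ∈ op ω ∩ ↑(Dq x l))) h

theorem rs_hdv (e : Ed) : (hdv e).1 ≤ (rs e).1 := by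
  rcases e with v | v <;> simp only [rs, hdv] <;> split_ifs <;> simp

/-! ### the open structure -/

/-- the five open crossings start in the cluster -/
theorem EE.out {x l : ℤ} (hl : 2 ≤ l) {ω : Cfg} (hE : ω ∈ EE x l) :
    ∃ p p' w w2 v v2 r r2 c c2 : Pt, p.2 = 0 ∧ p'.2 = 8 * l ∧ w.1 = x + 2 * l ∧ w2.1 = x + 3 * l ∧
      v.1 = x + 2 * l ∧ v2.1 = x + 3 * l ∧ r.1 = x - 3 * l ∧ r2.1 = x + 3 * l ∧ c.2 = 4 * l ∧
      c2.2 = 8 * l ∧
      (p.1 + p.2) % 2 = 0 ∧ (w.1 + w.2) % 2 = 0 ∧ (v.1 + v.2) % 2 = 0 ∧ (r.1 + r.2) % 2 = 0 ∧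
      (c.1 + c.2) % 2 = 0 ∧
      PConn (op ω ∩ ↑(Dq x l)) (Rect (x + 2 * l) (x + 3 * l) 0 (8 * l)) p p' ∧
      PConn (op ω ∩ ↑(Dq x l)) (Rect (x + 2 * l) (x + 3 * l) (3 * l) (4 * l - 1)) w w2 ∧
      PConn (op ω ∩ ↑(Dq x l)) (Rect (x + 2 * l) (x + 3 * l) l (2 * l)) v v2 ∧
      PConn (op ω ∩ ↑(Dq x l)) (Rect (x - 3 * l) (x + 3 * l) (6 * l) (8 * l)) r r2 ∧
      PConn (op ω ∩ ↑(Dq x l)) (Rect (x - 3 * l) (x - 2 * l) (4 * l) (8 * l)) c c2 ∧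
      p ∈ OC (Dq x l) (Sd x l) ω ∧ w ∈ OC (Dq x l) (Sd x l) ω ∧ v ∈ OC (Dq x l) (Sd x l) ω ∧
      r ∈ OC (Dq x l) (Sd x l) ω ∧ c ∈ OC (Dq x l) (Sd x l) ω := by
  obtain ⟨⟨p, p', hp, hp', pe, hP⟩, ⟨w, w2, hw, hw2, we, hW⟩, ⟨v, v2, hv, hv2, ve, hV⟩,
    ⟨r, r2, hr, hr2, re, hR⟩, ⟨c, c2, hc, hc2, ce, hC⟩⟩ := hE
  simp only [pr, if_true] at pe we ve re ce
  have kP := toD (x := x) (l := l) hP fun u _ _ _ _ => by rw [mem_Dq]; omega
  have kW := toD (x := x) (l := l) hW fun u _ _ _ _ => by rw [mem_Dq]; omega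
  have kV := toD (x := x) (l := l) hV fun u _ _ _ _ => by rw [mem_Dq]; omega
  have kR := toD (x := x) (l := l) hR fun u _ _ _ _ => by rw [mem_Dq]; omega
  have kC := toD (x := x) (l := l) hC fun u _ _ _ _ => by rw [mem_Dq]; omega
  have hpm := kP.left_mem
  rw [mem_rect] at hpm
  have op' : p ∈ OC (Dq x l) (Sd x l) ω := oc_base ⟨pe, hp, hpm.1, hpm.2.1⟩
  obtain ⟨z1, m1, m1'⟩ := meet kP (by omega) (by omega) pe kW (by omega) (by omega) we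
    (by omega) (by omega)
  obtain ⟨z2, m2, m2'⟩ := meet kP (by omega) (by omega) pe kV (by omega) (by omega) ve
    (by omega) (by omega)
  obtain ⟨z3, m3, m3'⟩ := meet kP (by omega) (by omega) pe kR (by omega) (by omega) re
    (by omega) (by omega)
  obtain ⟨z4, m4, m4'⟩ := meet kC (by omega) (by omega) ce kR (by omega) (by omega) re
    (by omega) (by omega)
  have or' : r ∈ OC (Dq x l) (Sd x l) ω := oc_trans (oc_trans op' m3) m3'.symm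
  exact ⟨p, p', w, w2, v, v2, r, r2, c, c2, hp, hp', hw, hw2, hv, hv2, hr, hr2, hc, hc2, pe, we, ve,
    re, ce, kP, kW, kV, kR, kC, op', oc_trans (oc_trans op' m1) m1'.symm,
    oc_trans (oc_trans op' m2) m2'.symm, or', oc_trans (oc_trans or' m4') m4.symm⟩

/-- `EE` is determined by the revealed squares -/
theorem EE_det {x l : ℤ} (hl : 2 ≤ l) {ω ω' : Cfg} (hE : ω ∈ EE x l)
    (h : ∀ q ∈ RC (Dq x l) (Sd x l) ω, ω' q = ω q) : ω' ∈ EE x l := by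
  obtain ⟨p, p', w, w2, v, v2, r, r2, c, c2, hp, hp', hw, hw2, hv, hv2, hr, hr2, hc, hc2, pe, we, ve,
    re, ce, kP, kW, kV, kR, kC, o1, o2, o3, o4, o5⟩ := EE.out hl hE
  have fin : ∀ {Rg : Set Pt} {u u' : Pt}, u ∈ OC (Dq x l) (Sd x l) ω →
      PConn (op ω ∩ ↑(Dq x l)) Rg u u' → PConn (cs true ω') Rg u u' := fun hu hk =>
    (oc_tr hu hk h).mono Set.inter_subset_left subset_rfl
  exact ⟨⟨p, p', hp, hp', by simpa [pr] using pe, fin o1 kP⟩,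
    ⟨w, w2, hw, hw2, by simpa [pr] using we, fin o2 kW⟩,
    ⟨v, v2, hv, hv2, by simpa [pr] using ve, fin o3 kV⟩,
    ⟨r, r2, hr, hr2, by simpa [pr] using re, fin o4 kR⟩,
    ⟨c, c2, hc, hc2, by simpa [pr] using ce, fin o5 kC⟩⟩

theorem rect_sub {a b c d a' b' c' d' : ℤ} (h1 : a' ≤ a) (h2 : b ≤ b') (h3 : c' ≤ c) (h4 : d ≤ d') :
    Rect a b c d ⊆ Rect a' b' c' d' := by
  intro v hv
  rw [mem_rect] at hv ⊢
  omega

/-- `w` to the side -/
theorem open_a {x l : ℤ} (hl : 2 ≤ l) {G : Set Pt} {p p' w w2 : Pt} (hp : p.2 = 0)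
    (hp' : p'.2 = 8 * l) (hw : w.1 = x + 2 * l) (hw2 : w2.1 = x + 3 * l) (pe : (p.1 + p.2) % 2 = 0)
    (we : (w.1 + w.2) % 2 = 0) (kP : PConn G (Rect (x + 2 * l) (x + 3 * l) 0 (8 * l)) p p')
    (kW : PConn G (Rect (x + 2 * l) (x + 3 * l) (3 * l) (4 * l - 1)) w w2) :
    PConn G (H318.Bx x l) w p := by
  obtain ⟨z1, e1, k1, -⟩ := pconn_cut_first (fun w => w.2) row_inc kP (R := 4 * l - 1) (by omega)
    (by omega)
  have k1' : PConn G (Rect (x + 2 * l) (x + 3 * l) 0 (4 * l - 1)) p z1 := k1.mono subset_rfl (by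
    rintro u ⟨hu1, hu2⟩
    rw [mem_rect] at hu1 ⊢
    simp only [Set.mem_ofPred_eq] at hu2
    omega)
  obtain ⟨y1, m1, m1'⟩ := meet k1' (by omega) (by omega) pe kW (by omega) (by omega) we
    (by omega) (by omega)
  refine ((m1'.mono subset_rfl (rect_sub le_rfl le_rfl (by omega) le_rfl)).trans m1.symm).mono
    subset_rfl ?_
  intro u hu
  rw [mem_rect] at hu
  simp only [H318.Bx, Set.mem_ofPred_eq]
  omega

/-- `w` around the tip -/
theorem open_b {x l : ℤ} (hl : 2 ≤ l) {G : Set Pt} {p p' w w2 r r2 c c2 : Pt} (hp : p.2 = 0)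
    (hp' : p'.2 = 8 * l) (hw : w.1 = x + 2 * l) (hw2 : w2.1 = x + 3 * l) (hr : r.1 = x - 3 * l)
    (hr2 : r2.1 = x + 3 * l) (hc : c.2 = 4 * l) (hc2 : c2.2 = 8 * l) (pe : (p.1 + p.2) % 2 = 0)
    (we : (w.1 + w.2) % 2 = 0) (re : (r.1 + r.2) % 2 = 0) (ce : (c.1 + c.2) % 2 = 0)
    (kP : PConn G (Rect (x + 2 * l) (x + 3 * l) 0 (8 * l)) p p')
    (kW : PConn G (Rect (x + 2 * l) (x + 3 * l) (3 * l) (4 * l - 1)) w w2)
    (kR : PConn G (Rect (x - 3 * l) (x + 3 * l) (6 * l) (8 * l)) r r2)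
    (kC : PConn G (Rect (x - 3 * l) (x - 2 * l) (4 * l) (8 * l)) c c2) :
    PConn G (H318.Cs x l) w c := by
  obtain ⟨z2, z2', e2, e2', k2p, k2, -⟩ := cut2 (fun w => w.2) row_inc (r := l) (R := 8 * l)
    (by omega) kP (by omega) (by omega)
  have z2e : (z2.1 + z2.2) % 2 = 0 := by rw [← k2p.parity, pe]
  have k2' : PConn G (Rect (x + 2 * l) (x + 3 * l) l (8 * l)) z2 z2' := k2.mono subset_rfl (by
    rintro u ⟨hu1, hu2, hu3⟩
    rw [mem_rect] at hu1 ⊢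
    omega)
  obtain ⟨y2, m2, m2'⟩ := meet k2' (by omega) (by omega) z2e kW (by omega) (by omega) we
    (by omega) (by omega)
  obtain ⟨y3, m3, m3'⟩ := meet k2' (by omega) (by omega) z2e kR (by omega) (by omega) re
    (by omega) (by omega)
  obtain ⟨y4, m4, m4'⟩ := meet kC (by omega) (by omega) ce kR (by omega) (by omega) re
    (by omega) (by omega)
  have cs1 : Rect (x + 2 * l) (x + 3 * l) l (8 * l) ⊆ H318.Cs x l := by
    intro u hu
    rw [mem_rect] at hu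
    simp only [H318.Cs, Set.mem_ofPred_eq]
    omega
  have cs2 : Rect (x - 3 * l) (x + 3 * l) (6 * l) (8 * l) ⊆ H318.Cs x l := by
    intro u hu
    rw [mem_rect] at hu
    simp only [H318.Cs, Set.mem_ofPred_eq]
    omega
  have cs3 : Rect (x - 3 * l) (x - 2 * l) (4 * l) (8 * l) ⊆ H318.Cs x l := by
    intro u hu
    rw [mem_rect] at hu
    simp only [H318.Cs, Set.mem_ofPred_eq]
    omega
  exact ((((m2'.mono subset_rfl ((rect_sub le_rfl le_rfl (by omega) (by omega)).trans cs1)).trans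
      (m2.symm.mono subset_rfl cs1)).trans (m3.mono subset_rfl cs1)).trans
      (m3'.symm.mono subset_rfl cs2)).trans
      ((m4'.mono subset_rfl cs2).trans (m4.symm.mono subset_rfl cs3))

/-- `v` and `w` are joined in the band -/
theorem open_c {x l : ℤ} (hl : 2 ≤ l) {G : Set Pt} {p p' w w2 v v2 : Pt} (hp : p.2 = 0)
    (hp' : p'.2 = 8 * l) (hw : w.1 = x + 2 * l) (hw2 : w2.1 = x + 3 * l) (hv : v.1 = x + 2 * l)
    (hv2 : v2.1 = x + 3 * l) (pe : (p.1 + p.2) % 2 = 0) (we : (w.1 + w.2) % 2 = 0)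
    (ve : (v.1 + v.2) % 2 = 0)
    (kP : PConn G (Rect (x + 2 * l) (x + 3 * l) 0 (8 * l)) p p')
    (kW : PConn G (Rect (x + 2 * l) (x + 3 * l) (3 * l) (4 * l - 1)) w w2)
    (kV : PConn G (Rect (x + 2 * l) (x + 3 * l) l (2 * l)) v v2) :
    PConn G (Rect (x + 2 * l) (x + 3 * l) l (4 * l - 1)) v w := by
  obtain ⟨z5, z5', e5, e5', k5p, k5, -⟩ := cut2 (fun w => w.2) row_inc (r := l) (R := 4 * l - 1)
    (by omega) kP (by omega) (by omega)
  have z5e : (z5.1 + z5.2) % 2 = 0 := by rw [← k5p.parity, pe]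
  have k5' : PConn G (Rect (x + 2 * l) (x + 3 * l) l (4 * l - 1)) z5 z5' := k5.mono subset_rfl (by
    rintro u ⟨hu1, hu2, hu3⟩
    rw [mem_rect] at hu1 ⊢
    omega)
  obtain ⟨y5, m5, m5'⟩ := meet k5' (by omega) (by omega) z5e kW (by omega) (by omega) we
    (by omega) (by omega)
  obtain ⟨y6, m6, m6'⟩ := meet k5' (by omega) (by omega) z5e kV (by omega) (by omega) ve
    (by omega) (by omega)
  exact ((m6'.mono subset_rfl (rect_sub le_rfl le_rfl le_rfl (by omega))).trans m6.symm).trans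
      (m5.trans (m5'.symm.mono subset_rfl (rect_sub le_rfl le_rfl (by omega) le_rfl)))

/-- a site of the cluster between the rows `2 l` and `3 l` is joined to `w` in the band -/
theorem open_d {x l : ℤ} (hl : 2 ≤ l) {ω : Cfg} {p p' w w2 v v2 s : Pt} (hp : p.2 = 0)
    (hp' : p'.2 = 8 * l) (hw : w.1 = x + 2 * l) (hw2 : w2.1 = x + 3 * l) (hv : v.1 = x + 2 * l)
    (hv2 : v2.1 = x + 3 * l) (pe : (p.1 + p.2) % 2 = 0) (we : (w.1 + w.2) % 2 = 0)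
    (ve : (v.1 + v.2) % 2 = 0)
    (kP : PConn (op ω ∩ ↑(Dq x l)) (Rect (x + 2 * l) (x + 3 * l) 0 (8 * l)) p p')
    (kW : PConn (op ω ∩ ↑(Dq x l)) (Rect (x + 2 * l) (x + 3 * l) (3 * l) (4 * l - 1)) w w2)
    (kV : PConn (op ω ∩ ↑(Dq x l)) (Rect (x + 2 * l) (x + 3 * l) l (2 * l)) v v2)
    (hs : s ∈ OC (Dq x l) (Sd x l) ω) (hs1 : 2 * l ≤ s.2) (hs2 : s.2 ≤ 3 * l) :
    PConn (op ω ∩ ↑(Dq x l)) (Rect (x + 2 * l) (x + 3 * l) l (4 * l - 1)) s w := by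
  obtain ⟨b, ⟨hb1, hb2, hb3, hb4⟩, hbs⟩ := hs
  have hbs' := in_Zd (x := x) (l := l) (show b ∈ Zd x l by
    simp only [Zd, Set.mem_ofPred_eq]; omega) hbs
  have hse : (s.1 + s.2) % 2 = 0 := by rw [← hbs.parity, hb1]
  obtain ⟨z, hz, hsz, -⟩ := pconn_cut_first (fun w => max (w.2 - (4 * l - 1)) (l - w.2))
    (fun u v h => by have := h.2.1; omega) hbs'.symm (R := 0) (by omega)
    (by omega)
  have hsz' : PConn (op ω ∩ ↑(Dq x l)) (Rect (x + 2 * l) (x + 3 * l) l (4 * l - 1)) s z :=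
    hsz.mono subset_rfl (by
      rintro u ⟨hu1, hu2⟩
      simp only [Zd, Set.mem_ofPred_eq] at hu1 hu2
      rw [mem_rect]
      omega)
  have hz' : z.2 = 4 * l - 1 ∨ z.2 = l := by omega
  rcases hz' with hz' | hz'
  · obtain ⟨y, n, n'⟩ := meet hsz' (by omega) (by omega) hse kW (by omega) (by omega) we
      (by omega) (by omega)
    exact n.trans (n'.symm.mono subset_rfl (rect_sub le_rfl le_rfl (by omega) le_rfl))
  · obtain ⟨y, n, n'⟩ := meet hsz'.symm (by omega) (by omega) (by rw [← hsz'.parity, hse]) kV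
      (by omega) (by omega) ve (by omega) (by omega)
    exact (hsz'.trans (n.trans (n'.symm.mono subset_rfl
      (rect_sub le_rfl le_rfl le_rfl (by omega))))).trans
      (open_c hl hp hp' hw hw2 hv hv2 pe we ve kP kW kV)

/-- the open half of the gate -/
theorem open_half {x l : ℤ} (hl : 2 ≤ l) {ω : Cfg} (hE : ω ∈ EE x l) {s : Pt}
    (hs : s ∈ OC (Dq x l) (Sd x l) ω) (hs1 : 2 * l ≤ s.2) (hs2 : s.2 ≤ 3 * l) :
    ∃ a p c : Pt, a ∈ OC (Dq x l) (Sd x l) ω ∧ x + 2 ≤ a.1 ∧ a.2 ≤ 4 * l ∧ p.2 = 0 ∧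
      c.1 ≤ x - 1 ∧ c.2 ≤ 4 * l ∧
      PConn (op ω ∩ ↑(Dq x l)) (H318.Bd x l) s a ∧ PConn (op ω ∩ ↑(Dq x l)) (H318.Bx x l) a p ∧
      PConn (op ω ∩ ↑(Dq x l)) (H318.Cs x l) a c := by
  obtain ⟨p, p', w, w2, v, v2, r, r2, c, c2, hp, hp', hw, hw2, hv, hv2, hr, hr2, hc, hc2, pe, we, ve,
    re, ce, kP, kW, kV, kR, kC, o1, o2, o3, o4, o5⟩ := EE.out hl hE
  have hwm := kW.left_mem
  have hcm := kC.left_mem
  rw [mem_rect] at hwm hcm
  refine ⟨w, p, c, o2, by omega, by omega, hp, by omega, by omega,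
    (open_d hl hp hp' hw hw2 hv hv2 pe we ve kP kW kV hs hs1 hs2).mono subset_rfl ?_,
    open_a hl hp hp' hw hw2 pe we kP kW,
    open_b hl hp hp' hw hw2 hr hr2 hc hc2 pe we re ce kP kW kR kC⟩
  intro u hu
  rw [mem_rect] at hu
  simp only [H318.Bd, Set.mem_ofPred_eq]
  omega

/-- the dual half of the gate -/
theorem dual_half {x l : ℤ} (hl : 2 ≤ l) {ξ : Cfg} {t t' : Pt} (ht : t.1 = x - l)
    (hte : (t.1 + t.2) % 2 = 1) (ht' : x - 1 ≤ t'.1)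
    (hS : PConn (op ξ)ᶜ (Rect (x - l) (x + 3 * l) (2 * l) (3 * l)) t t')
    (h1 : ξ ∈ Vc false (x - l) (x - 1) 0 (4 * l)) (h2 : ξ ∈ Vc false (x - l) (x - 1) l (6 * l - 1))
    (h3 : ξ ∈ Hc false (x - l) (x + l) (4 * l) (6 * l - 1))
    (h4 : ξ ∈ Vc false (x + 2) (x + l) (4 * l) (6 * l - 1)) :
    ∃ a p c : Pt, a.1 ≤ x - 1 ∧ a.2 ≤ 4 * l ∧ p.2 = 0 ∧ x + 2 ≤ c.1 ∧ c.2 ≤ 4 * l ∧
      PConn (op ξ)ᶜ (H318.Bd x l) t' a ∧ PConn (op ξ)ᶜ (H318.Bx x l) a p ∧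
      PConn (op ξ)ᶜ (H318.Cs x l) a c := by
  obtain ⟨p, p', hp, hp', pe, hP⟩ := h1
  obtain ⟨q, q', hq, hq', qe, hQ⟩ := h2
  obtain ⟨w, w', hw, hw', we, hW⟩ := h3
  obtain ⟨c, c', hc, hc', ce, hC⟩ := h4
  rw [cs_false] at hP hQ hW hC
  simp only [pr, Bool.false_eq_true, if_false] at pe qe we ce
  set G := (op ξ)ᶜ with hG
  have htm := hS.left_mem
  have hcm := hC.left_mem
  rw [mem_rect] at htm hcm
  obtain ⟨z, hz, k, -⟩ := pconn_cut_first (fun w => w.1) col_inc hS (R := x - 1)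
    (by omega) ht'
  have k' : PConn G (Rect (x - l) (x - 1) (2 * l) (3 * l)) t z := k.mono subset_rfl (by
    rintro u ⟨hu1, hu2⟩
    rw [mem_rect] at hu1 ⊢
    simp only [Set.mem_ofPred_eq] at hu2
    omega)
  obtain ⟨y1, m1, m1'⟩ := meet hP (by omega) (by omega) pe k' (by omega) (by omega) hte
    (by omega) (by omega)
  obtain ⟨y2, m2, m2'⟩ := meet hQ (by omega) (by omega) qe k' (by omega) (by omega) hte
    (by omega) (by omega)
  obtain ⟨y3, m3, m3'⟩ := meet hQ (by omega) (by omega) qe hW (by omega) (by omega) we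
    (by omega) (by omega)
  obtain ⟨y4, m4, m4'⟩ := meet hC (by omega) (by omega) ce hW (by omega) (by omega) we
    (by omega) (by omega)
  have cs1 : Rect (x - l) (x - 1) l (6 * l - 1) ⊆ H318.Cs x l := by
    intro u hu
    rw [mem_rect] at hu
    simp only [H318.Cs, Set.mem_ofPred_eq]
    omega
  have cs2 : Rect (x - l) (x + l) (4 * l) (6 * l - 1) ⊆ H318.Cs x l := by
    intro u hu
    rw [mem_rect] at hu
    simp only [H318.Cs, Set.mem_ofPred_eq]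
    omega
  refine ⟨t, p, c, by omega, by omega, hp, by omega, by omega, hS.symm.mono subset_rfl ?_,
    ?_, ?_⟩
  · intro u hu
    rw [mem_rect] at hu
    simp only [H318.Bd, Set.mem_ofPred_eq]
    omega
  · have : PConn G (Rect (x - l) (x - 1) 0 (4 * l)) t p :=
      (m1'.mono subset_rfl (rect_sub le_rfl le_rfl (by omega) (by omega))).trans m1.symm
    refine this.mono subset_rfl ?_
    intro u hu
    rw [mem_rect] at hu
    simp only [H318.Bx, Set.mem_ofPred_eq]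
    omega
  · exact ((((m2'.mono subset_rfl ((rect_sub le_rfl le_rfl (by omega) (by omega)).trans cs1)).trans
      (m2.symm.mono subset_rfl cs1)).trans (m3.mono subset_rfl cs1)).trans
      (m3'.symm.mono subset_rfl cs2)).trans ((m4'.mono subset_rfl cs2).trans
      (m4.symm.mono subset_rfl ((rect_sub (by omega) le_rfl le_rfl le_rfl).trans cs2)))

/-- squares off the explored region -/
theorem dual_tr {x l a b p q : ℤ} {R : Finset Pt} (hR : ∀ v ∈ R, v ∈ Dq x l) {ω ω' : Cfg}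
    (hd : ∀ v : Pt, a ≤ v.1 → v.1 < b → p ≤ v.2 → v.2 < q → v ∉ Dq x l) {s t : Pt}
    (h : PConn (cs false ω') (Rect a b p q) s t) :
    PConn (cs false (glue (↑R) ω ω')) (Rect a b p q) s t := by
  refine congr_rect (fun v hv h1 h2 h3 h4 => ?_) h
  show glue (↑R) ω ω' v = false
  rw [glue_not_mem (fun h => hd v h1 h2 h3 h4 (hR v (Finset.mem_coe.1 h)))]
  exact hv

end Vale.Agent.P167.H704
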