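import Vale.Agent.P167.H318.Rev
import Vale.Agent.P167.H704.RecDefs

/-!
# P167, block REC: the claim for states of type B
-/

namespace Vale.Agent.P167.H704

open Vale.Agent.P167 Vale.Agent.P167.H318 Vale.Agent.P167.H192 Vale.Agent.P167.H558
open MeasureTheory

theorem TJ_anti {S : St} (hS : tlv S.e0 ∉ S.D) {u w l x l' l'' : ℤ} (h : l'' ≤ l') :
    TJ S u w l x l'' ⊆ TJ S u w l x l' := by
  rintro ω ⟨h1, h2, h3⟩
  have hle : hit S.D S.e0 (Lo u w l') (S.cf ω) ≤ hit S.D S.e0 (Lo u w l'') (S.cf ω) :=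
    Bs.hit_anti hS (Lo_mono h)
  exact ⟨h1, hle.trans_lt h2, fun i hi hi' => h3 i hi (hi'.trans hle)⟩

theorem dep_compl {K : Finset (ℤ × ℤ)} {B : Set Cfg} (h : Dep K fun ω => ω ∈ B) :
    Dep K fun ω => ω ∈ Bᶜ := h.comp Not

theorem dep_diff {K : Finset (ℤ × ℤ)} {A B : Set Cfg} (h : Dep K fun ω => ω ∈ A)
    (h' : Dep K fun ω => ω ∈ B) : Dep K fun ω => ω ∈ A \ B := h.comp₂ h' fun a b => a ∧ ¬ b

section

variable {S : St} {u w l x h0 x0 ρ : ℤ} {k : ℕ} {ψ : ℤ → ℝ} {Λ a : ℝ}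

/-- one event which is determined by the squares at height `≥ y` -/
theorem one (hTB : TB S u (2 * w) (4 * l) (16 * l) x) (hF : ∀ v ∈ S.F, v ∈ Lo u (2 * w) (16 * l))
    (he : ∀ x, u - 2 * w ≤ x → x ≤ u + 2 * w → S.e0 ≠ Sum.inr (x, -1))
    {y : ℤ} (hy : y ≤ 4 * l) (hC : Cn k w u h0 x0 ρ ψ Λ a y) {B : Set Cfg}
    (hB : Dep (S.F ∪ mF x S.F) fun ω => ω ∈ B)
    (h' : ∀ ω ω' : Cfg, (∀ q : ℤ × ℤ, y ≤ q.2 → ω q = ω' q) → ω ∈ B → ω' ∈ B) :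
    |∫ ω in B, J S.D S.e0 ψ k (S.cf ω) ∂μ| ≤
      a * k * μ.real B + Λ * k * μ.real (B ∩ {ω | S.cf ω ∈ Lv S u w h0 x0 ρ}) := by
  refine rev S (Up S x y) (past_Up hB h') (J S.D S.e0 ψ k) _ fun ω _ => ?_
  obtain ⟨h1, h2⟩ := TA_Up (x := x) (h := y) hTB.toOk
    ⟨fun v hv => hTB.flat.mem v (Lo_mono hy hv), hTB.flat.not⟩ hF
    (fun v hv => hTB.fresh v (Lo_mono hy hv)) ω
  exact hC _ h1 h2 he

/-- the sum over the levels -/
theorem tel (hDT : DT) {M : ℕ} {L : ℕ → ℤ} (hl : 1 ≤ l) (hL0 : L 0 = l)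
    (hLa : ∀ j, L (j + 1) ≤ L j) (hL1 : ∀ j ≤ M, 1 ≤ L j)
    (hTB : TB S u (2 * w) (4 * l) (16 * l) x) (hF : ∀ v ∈ S.F, v ∈ Lo u (2 * w) (16 * l))
    (he : ∀ x, u - 2 * w ≤ x → x ≤ u + 2 * w → S.e0 ≠ Sum.inr (x, -1))
    (hxl : u - 2 * w ≤ x - 20 * l) (hxr : x + 20 * l ≤ u + 2 * w)
    (hC : ∀ j ≤ M, Cn k w u h0 x0 ρ ψ Λ a (L j)) (j : ℕ) (hj : j ≤ M) :
    |∫ ω in (TJ S u (2 * w) l x (L j))ᶜ, J S.D S.e0 ψ k (S.cf ω) ∂μ| ≤
      a * k * μ.real (TJ S u (2 * w) l x (L j))ᶜ +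
        Λ * k * μ.real ((TJ S u (2 * w) l x (L j))ᶜ ∩ {ω | S.cf ω ∈ Lv S u w h0 x0 ρ}) := by
  have hle : ∀ j, L j ≤ l := by
    intro j
    induction j with
    | zero => exact hL0.le
    | succ j ih => exact (hLa j).trans ih
  have hdt : ∀ j ≤ M, ∀ ω ω' : Cfg, (∀ q : ℤ × ℤ, L j ≤ q.2 → ω q = ω' q) →
      ω ∈ TJ S u (2 * w) l x (L j) → ω' ∈ TJ S u (2 * w) l x (L j) := fun j hj =>
    hDT S u (2 * w) l (16 * l) x (L j) (hL1 j hj) (hle j) (by omega) hTB hF hxl hxr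
  induction j with
  | zero =>
    refine one hTB hF he (by rw [hL0]; omega) (hC 0 hj) (dep_compl (dep_TJ S _ _ _ _ _))
      fun ω ω' h hω hω' => hω (hdt 0 hj ω' ω (fun q hq => (h q hq).symm) hω')
  | succ j ih =>
    have ih' := ih (by omega)
    set T := TJ S u (2 * w) l x (L j) with hT
    set T' := TJ S u (2 * w) l x (L (j + 1)) with hT'
    set V := {ω | S.cf ω ∈ Lv S u w h0 x0 ρ} with hV
    have hsub : T' ⊆ T := TJ_anti hTB.st (hLa j)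
    have dT := dep_TJ S u (2 * w) l x (L j)
    have dT' := dep_TJ S u (2 * w) l x (L (j + 1))
    have mT : MeasurableSet T := dT.measurableSet
    have mT' : MeasurableSet T' := dT'.measurableSet
    have mD : MeasurableSet (T \ T') := MeasurableSet.diff mT mT'
    have mV : MeasurableSet V := Dep.measurableSet (dep_cf S fun ξ => ξ ∈ Lv S u w h0 x0 ρ)
    have h1 := one hTB hF he (y := L (j + 1)) (by have := hle (j + 1); omega) (hC (j + 1) hj)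
      (B := T \ T') (dep_diff dT dT') (fun ω ω' h hω => ⟨hdt j (by omega) ω ω'
        (fun q hq => h q ((hLa j).trans hq)) hω.1, fun h2 => hω.2 (hdt (j + 1) hj ω' ω
          (fun q hq => (h q hq).symm) h2)⟩)
    have e : T'ᶜ = Tᶜ ∪ (T \ T') := by
      ext ω
      simp only [Set.mem_compl_iff, Set.mem_union, Set.mem_sdiff]
      constructor
      · intro h
        by_cases h2 : ω ∈ T
        · exact Or.inr ⟨h2, h⟩
        · exact Or.inl h2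
      · rintro (h | h) h2
        · exact h (hsub h2)
        · exact h.2 h2
    have hdis : Disjoint Tᶜ (T \ T') := by
      rw [Set.disjoint_left]
      exact fun ω h h2 => h h2.1
    have iJ : Integrable (fun ω => J S.D S.e0 ψ k (S.cf ω)) μ := (dep_cf S _).integrable
    have e1 : ∫ ω in T'ᶜ, J S.D S.e0 ψ k (S.cf ω) ∂μ =
        ∫ ω in Tᶜ, J S.D S.e0 ψ k (S.cf ω) ∂μ + ∫ ω in T \ T', J S.D S.e0 ψ k (S.cf ω) ∂μ := by
      rw [e, setIntegral_union hdis mD iJ.integrableOn iJ.integrableOn]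
    have e2 : μ.real T'ᶜ = μ.real Tᶜ + μ.real (T \ T') := by
      rw [e, measureReal_union hdis mD]
    have e3 : μ.real (T'ᶜ ∩ V) = μ.real (Tᶜ ∩ V) + μ.real ((T \ T') ∩ V) := by
      rw [e, Set.union_inter_distrib_right, measureReal_union
        (hdis.mono Set.inter_subset_left Set.inter_subset_left) (mD.inter mV)]
    rw [e1, e2, e3]
    refine (abs_add_le _ _).trans ((add_le_add ih' h1).trans (le_of_eq ?_))
    ring

/-- **the claim for states of type B** -/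
theorem bn (hDT : DT) {c : ℝ} {l0 : ℤ} (hPA : ∀ (S : St) (u w l H x l' : ℤ), l0 ≤ l → 1 ≤ l' →
      l' ≤ l → 8 * l ≤ H → TB S u w (4 * l) H x → u - w ≤ x - 20 * l → x + 20 * l ≤ u + w →
      c ≤ μ.real (AA S u w l x l'))
    {C1 : ℝ} (hMR : ∀ (S : St) (u w l H x l' : ℤ) (k : ℕ) (ψ : ℤ → ℝ) (v : ℤ),
      1 ≤ k → 150 * (k : ℤ) ≤ l' → l' ≤ l → 8 * l ≤ H → TB S u w (4 * l) H x →
      (∀ v ∈ S.F, v ∈ Lo u w H) → u - w ≤ x - 20 * l → x + 20 * l ≤ u + w → 20 * l ≤ v →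
      (∀ x, |ψ x| ≤ 1) → (∀ x x', |ψ x - ψ x'| ≤ |(x : ℝ) - x'| / v) →
      (∀ x, ψ x ≠ 0 → u - w + 150 * k ≤ x ∧ x ≤ u + w - 150 * k) →
      |∫ ω in AA S u w l x l', J S.D S.e0 ψ k (S.cf ω) ∂μ| ≤ C1 * k * (l / v))
    {C2 α : ℝ} (hBAD : ∀ (S : St) (u w l H x l' : ℤ) (k : ℕ) (ψ : ℤ → ℝ),
      1 ≤ k → 150 * (k : ℤ) ≤ l' → l' ≤ l → 8 * l ≤ H → TB S u w (4 * l) H x →
      (∀ v ∈ S.F, v ∈ Lo u w H) → u - w ≤ x - 20 * l → x + 20 * l ≤ u + w →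
      (∀ x, |ψ x| ≤ 1) → (∀ x, ψ x ≠ 0 → u - w + 150 * k ≤ x ∧ x ≤ u + w - 150 * k) →
      ∫ ω in TJ S u w l x l' \ AA S u w l x l', |J S.D S.e0 ψ k (S.cf ω)| ∂μ ≤
        C2 * k * ((l' : ℝ) / l) ^ α)
    {k : ℕ} {w u h0 x0 ρ l : ℤ} {ψ : ℤ → ℝ} {Λ a : ℝ} {M : ℕ} {L : ℕ → ℤ} (hk : 1 ≤ k)
    (hL0 : L 0 = l) (hLa : ∀ j, L (j + 1) ≤ L j) (hLM : 150 * (k : ℤ) ≤ L M) (hl0 : l0 ≤ l)
    (hlw : 80 * l ≤ w) (hx0 : 4 * (|x0 - u| + ρ) ≤ 7 * w)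
    (hψ : ∀ x, |ψ x| ≤ 1) (hψ' : ∀ x x', |ψ x - ψ x'| ≤ |(x : ℝ) - x'| / w)
    (hs : ∀ x, ψ x ≠ 0 → u - w ≤ x ∧ x ≤ u + w) (ha : 0 ≤ a) (hΛ : 0 ≤ Λ)
    (hC : ∀ j ≤ M, Cn k w u h0 x0 ρ ψ Λ a (L j)) :
    Bn k w u h0 x0 ρ ψ Λ ((1 - c) * a + C1 * (l / w) + C2 * ((L M : ℝ) / l) ^ α) l := by
  intro S x hTB hF he hx
  have hanti : ∀ i j, i ≤ j → L j ≤ L i := by
    intro i j hij
    induction j, hij using Nat.le_induction with
    | base => exact le_rfl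
    | succ j _ ih => exact (hLa j).trans ih
  have hL1 : ∀ j ≤ M, 1 ≤ L j := fun j hj => by have := hanti j M hj; omega
  have hLl : L M ≤ l := by rw [← hL0]; exact hanti 0 M (Nat.zero_le _)
  have hl1 : 1 ≤ l := by omega
  have hxu : u - 2 * w ≤ x - 20 * l ∧ x + 20 * l ≤ u + 2 * w := by
    have h1 := abs_lt.1 hx
    have h2 := abs_le.1 (le_refl |x0 - u|)
    omega
  have hs' : ∀ x, ψ x ≠ 0 → u - 2 * w + 150 * k ≤ x ∧ x ≤ u + 2 * w - 150 * k := fun x hx => by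
    have := hs x hx
    omega
  set T := TJ S u (2 * w) l x (L M) with hT
  set A := AA S u (2 * w) l x (L M) with hA
  set V := {ω | S.cf ω ∈ Lv S u w h0 x0 ρ} with hV
  have b1 := tel hDT hl1 hL0 hLa hL1 hTB hF he hxu.1 hxu.2 hC M le_rfl
  have b2 := hBAD S u (2 * w) l (16 * l) x (L M) k ψ hk hLM hLl (by omega) hTB hF hxu.1 hxu.2 hψ hs'
  have b3 := hMR S u (2 * w) l (16 * l) x (L M) k ψ w hk hLM hLl (by omega) hTB hF hxu.1 hxu.2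
    (by omega) hψ hψ' hs'
  have b4 := hPA S u (2 * w) l (16 * l) x (L M) hl0 (hL1 M le_rfl) hLl (by omega) hTB hxu.1 hxu.2
  rw [← hT, ← hV] at b1
  rw [← hT, ← hA] at b2
  rw [← hA] at b3 b4
  have dT := dep_TJ S u (2 * w) l x (L M)
  have dA := dep_AA S u (2 * w) l x (L M)
  have mT : MeasurableSet T := dT.measurableSet
  have mA : MeasurableSet A := dA.measurableSet
  have mD : MeasurableSet (T \ A) := MeasurableSet.diff mT mA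
  have hAT : A ⊆ T := fun ω hω => hω.1
  have iJ : Integrable (fun ω => J S.D S.e0 ψ k (S.cf ω)) μ := (dep_cf S _).integrable
  have e1 : S.E (J S.D S.e0 ψ k) = ∫ ω in A, J S.D S.e0 ψ k (S.cf ω) ∂μ +
      ∫ ω in T \ A, J S.D S.e0 ψ k (S.cf ω) ∂μ + ∫ ω in Tᶜ, J S.D S.e0 ψ k (S.cf ω) ∂μ := by
    have h1 : ∫ ω in T, J S.D S.e0 ψ k (S.cf ω) ∂μ = ∫ ω in A, J S.D S.e0 ψ k (S.cf ω) ∂μ +
        ∫ ω in T \ A, J S.D S.e0 ψ k (S.cf ω) ∂μ := by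
      rw [← setIntegral_union (Set.disjoint_sdiff_right) mD iJ.integrableOn
        iJ.integrableOn, Set.union_sdiff_cancel hAT]
    rw [← h1]
    exact (integral_add_compl mT iJ).symm
  have e2 : μ.real Tᶜ ≤ 1 - c := by
    rw [probReal_compl_eq_one_sub mT]
    have : μ.real A ≤ μ.real T := measureReal_mono hAT
    linarith
  have e3 : μ.real (Tᶜ ∩ V) ≤ S.Pr (Lv S u w h0 x0 ρ) := measureReal_mono Set.inter_subset_right
  have e4 : |∫ ω in T \ A, J S.D S.e0 ψ k (S.cf ω) ∂μ| ≤ C2 * k * ((L M : ℝ) / l) ^ α :=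
    abs_integral_le_integral_abs.trans b2
  have hk0 : (0 : ℝ) ≤ k := by positivity
  rw [e1]
  calc _ ≤ |∫ ω in A, J S.D S.e0 ψ k (S.cf ω) ∂μ| + |∫ ω in T \ A, J S.D S.e0 ψ k (S.cf ω) ∂μ| +
        |∫ ω in Tᶜ, J S.D S.e0 ψ k (S.cf ω) ∂μ| :=
        (abs_add_le _ _).trans (add_le_add_left (abs_add_le _ _) _)
    _ ≤ C1 * k * (l / w) + C2 * k * ((L M : ℝ) / l) ^ α +
        (a * k * (1 - c) + Λ * k * S.Pr (Lv S u w h0 x0 ρ)) := by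
        refine add_le_add (add_le_add b3 e4) (b1.trans (add_le_add ?_ ?_))
        · exact mul_le_mul_of_nonneg_left e2 (by positivity)
        · exact mul_le_mul_of_nonneg_left e3 (by positivity)
    _ = _ := by ring

end

end Vale.Agent.P167.H704
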