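import Vale.Agent.P167.H704.Rb

/-!
# P167, block REC: the recursion

`cl_of` : `CL` from the probability of `AA`, the locality of `TJ`, the escape bound, the mirror image
and the second moment.
-/

namespace Vale.Agent.P167.H704

open Vale.Agent.P167 Vale.Agent.P167.H318 Vale.Agent.P167.H192 Vale.Agent.P167.H558
open MeasureTheory

theorem Cn_mono {k : ℕ} {w u h0 x0 ρ : ℤ} {ψ : ℤ → ℝ} {Λ a a' : ℝ} {y : ℤ} (h : a ≤ a')
    (hC : Cn k w u h0 x0 ρ ψ Λ a y) : Cn k w u h0 x0 ρ ψ Λ a' y := fun S h1 h2 h3 =>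
  (hC S h1 h2 h3).trans (by
    have : a * (k : ℝ) ≤ a' * k := mul_le_mul_of_nonneg_right h (by positivity)
    linarith)

theorem Pr_nn (S : St) (A : Set Cfg) : 0 ≤ S.Pr A := measureReal_nonneg

/-- **CL** -/
theorem cl_of (hPA : PA) (hDT : DT) (hBAD : BAD) (hMR : MR) (hSM : SM1) (hRND : RND) : CL := by
  obtain ⟨c, l0, hc, hPA⟩ := hPA
  obtain ⟨C1, hC1, hMR⟩ := hMR
  obtain ⟨C2, α, hC2, hα, hBAD⟩ := hBAD
  obtain ⟨Λ, hΛ, hSM⟩ := hSM
  refine ⟨Λ, hΛ, fun δ hδ => ?_⟩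
  obtain ⟨c', hc'⟩ : ∃ c', c' = min c 1 := ⟨_, rfl⟩
  have c1 : 0 < c' := by rw [hc']; exact lt_min hc one_pos
  have c2 : c' ≤ 1 := by rw [hc']; exact min_le_right _ _
  have c3 : c' ≤ c := by rw [hc']; exact min_le_left _ _
  have hPA' : ∀ (S : St) (u w l H x l' : ℤ), l0 ≤ l → 1 ≤ l' → l' ≤ l → 8 * l ≤ H →
      TB S u w (4 * l) H x → u - w ≤ x - 20 * l → x + 20 * l ≤ u + w →
      c' ≤ μ.real (AA S u w l x l') := fun S u w l H x l' h1 h2 h3 h4 h5 h6 h7 =>
    c3.trans (hPA S u w l H x l' h1 h2 h3 h4 h5 h6 h7)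
  -- the number of levels
  obtain ⟨M, hM⟩ : ∃ M : ℕ, C2 * ((1 / 4 : ℝ) ^ M) ^ α ≤ c' * δ / 4 := by
    have h1 : Filter.Tendsto (fun M : ℕ => C2 * ((1 / 4 : ℝ) ^ M) ^ α) Filter.atTop (nhds 0) := by
      have h2 : Filter.Tendsto (fun M : ℕ => (1 / 4 : ℝ) ^ M) Filter.atTop (nhds 0) :=
        tendsto_pow_atTop_nhds_zero_of_lt_one (by norm_num) (by norm_num)
      have h3 := (h2.rpow_const (p := α) (Or.inr hα.le)).const_mul C2
      rw [Real.zero_rpow hα.ne', mul_zero] at h3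
      exact h3
    exact (h1.eventually (ge_mem_nhds (show (0 : ℝ) < c' * δ / 4 by positivity))).exists
  obtain ⟨i, hi⟩ : ∃ i : ℕ, (1 - c') ^ i * Λ ≤ δ / 2 := by
    have h1 : Filter.Tendsto (fun i : ℕ => (1 - c') ^ i * Λ) Filter.atTop (nhds 0) := by
      have := (tendsto_pow_atTop_nhds_zero_of_lt_one (r := 1 - c') (by linarith)
        (by linarith)).mul_const Λ
      rwa [zero_mul] at this
    exact (h1.eventually (ge_mem_nhds (show (0 : ℝ) < δ / 2 by positivity))).exists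
  obtain ⟨n0, hn0⟩ : ∃ n0, n0 = (M + 2) * i := ⟨_, rfl⟩
  obtain ⟨Q, hQ⟩ : ∃ Q : ℤ, Q = max 150 l0 := ⟨_, rfl⟩
  have Q1 : 150 ≤ Q := by rw [hQ]; exact le_max_left _ _
  have Q2 : l0 ≤ Q := by rw [hQ]; exact le_max_right _ _
  obtain ⟨K1, hK1⟩ : ∃ K1 : ℤ, 80 ≤ K1 ∧ C1 / K1 ≤ c' * δ / 4 := by
    obtain ⟨n, hn⟩ := exists_nat_ge (C1 / (c' * δ / 4))
    refine ⟨80 + n, by omega, ?_⟩
    push_cast
    rw [div_le_iff₀ (by positivity)]
    rw [div_le_iff₀ (by positivity)] at hn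
    nlinarith [mul_pos c1 hδ]
  obtain ⟨K2, K3⟩ := hK1
  have h4 : ∀ n : ℕ, (1 : ℤ) ≤ 4 ^ n := fun n => one_le_pow₀ (by norm_num)
  refine ⟨4 ^ n0 * Q, 4 ^ n0 * Q * K1, by nlinarith [h4 n0], ?_⟩
  intro k w u x0 ρ S ψ hk hKw hTA hF he hx0 hψ hψ' hs
  have hk' : (1 : ℤ) ≤ k := by exact_mod_cast hk
  have hQk : Q ≤ Q * k := by nlinarith
  have hQk' : 150 * (k : ℤ) ≤ Q * k := by nlinarith
  have hw80 : 80 * (4 ^ n0 * Q * k) ≤ w := by
    have : 80 * (4 ^ n0 * Q * k) ≤ K1 * (4 ^ n0 * Q * k) :=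
      mul_le_mul_of_nonneg_right K2 (by have := h4 n0; positivity)
    nlinarith
  have hyk : ∀ n : ℕ, Q * k ≤ 4 ^ n * (Q * k) := fun n => by
    have := h4 n
    nlinarith
  have hlev : ∀ n ≤ n0, (4 : ℤ) ^ n * (Q * k) ≤ 4 ^ n0 * Q * k := fun n hn => by
    have : (4 : ℤ) ^ n ≤ 4 ^ n0 := pow_le_pow_right₀ (by norm_num) hn
    calc (4 : ℤ) ^ n * (Q * k) ≤ 4 ^ n0 * (Q * k) := mul_le_mul_of_nonneg_right this (by positivity)
      _ = _ := by ring
  have hw150 : 150 * (k : ℤ) ≤ w := by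
    have := hyk n0
    have := hlev n0 le_rfl
    omega
  have hs' : ∀ x, ψ x ≠ 0 → u - 2 * w + 150 * k ≤ x ∧ x ≤ u + 2 * w - 150 * k := fun x hx => by
    have := hs x hx
    omega
  have main : ∀ i' n : ℕ, (M + 2) * i' ≤ n → n ≤ n0 →
      Cn k w u (4 ^ n0 * Q * k) x0 ρ ψ Λ ((1 - c') ^ i' * Λ + δ / 2) (4 ^ n * (Q * k)) := by
    intro i'
    induction i' with
    | zero =>
      intro n _ hn S' h1 h2 h3
      have h5 := hSM S' u (2 * w) (4 ^ n * (Q * k)) k ψ hk (by have := hyk n; omega) h1 hψ hs'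
      have h6 := Pr_nn S' (Lv S' u w (4 ^ n0 * Q * k) x0 ρ)
      have h7 : 0 ≤ Λ * k * S'.Pr (Lv S' u w (4 ^ n0 * Q * k) x0 ρ) := by positivity
      have h8 : 0 ≤ δ / 2 * (k : ℝ) := by positivity
      rw [pow_zero, one_mul]
      linarith
    | succ i' ih =>
      intro n hn hn'
      rw [Nat.mul_succ] at hn
      obtain ⟨m, rfl⟩ : ∃ m, n = m + 2 := ⟨n - 2, by omega⟩
      have hm : (M + 2) * i' + M ≤ m := by omega
      obtain ⟨l, hl⟩ : ∃ l : ℤ, l = 4 ^ m * (Q * k) := ⟨_, rfl⟩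
      have e16 : (4 : ℤ) ^ (m + 2) * (Q * k) = 16 * l := by rw [hl]; ring
      have hlQ : Q * k ≤ l := by rw [hl]; exact hyk m
      have hl1 : 1 ≤ l := by omega
      have hl16 : 16 * l ≤ 4 ^ n0 * Q * k := by rw [← e16]; exact hlev _ hn'
      obtain ⟨L, hL⟩ : ∃ L : ℕ → ℤ, L = fun j => 4 ^ (m - j) * (Q * k) := ⟨_, rfl⟩
      have hLa : ∀ j, L (j + 1) ≤ L j := by
        intro j
        rw [hL]
        exact mul_le_mul_of_nonneg_right (pow_le_pow_right₀ (by norm_num) (by omega))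
          (by positivity)
      have hLM : 150 * (k : ℤ) ≤ L M := by
        rw [hL]
        have := hyk (m - M)
        dsimp only
        omega
      set a := (1 - c') ^ i' * Λ + δ / 2 with ha
      have ha0 : 0 ≤ a := by
        have : 0 ≤ (1 - c') ^ i' := pow_nonneg (by linarith) _
        positivity
      have hCj : ∀ j ≤ M, Cn k w u (4 ^ n0 * Q * k) x0 ρ ψ Λ a (L j) := by
        intro j hj
        rw [hL]
        exact ih (m - j) (by omega) (by omega)
      have hB := bn hDT hPA' hMR hBAD (M := M) (L := L) (l := l) (h0 := 4 ^ n0 * Q * k) (ρ := ρ)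
        hk (by rw [hL, hl]; simp) hLa hLM (by omega) (by omega) hx0 hψ hψ' hs ha0 hΛ.le hCj
      -- the constants
      have hlR : (0 : ℝ) < l := by exact_mod_cast (by omega : 0 < l)
      have hwR : (0 : ℝ) < w := by exact_mod_cast (by omega : 0 < w)
      have t1 : C1 * ((l : ℝ) / w) ≤ c' * δ / 4 := by
        refine le_trans ?_ K3
        have hK1R : (0 : ℝ) < K1 := by exact_mod_cast (by omega : 0 < K1)
        rw [div_eq_mul_inv C1]
        refine mul_le_mul_of_nonneg_left ?_ hC1.le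
        rw [div_le_iff₀ hwR, ← div_eq_inv_mul, le_div_iff₀ hK1R]
        have : l * K1 ≤ w := by
          calc l * K1 ≤ (4 ^ n0 * Q * k) * K1 := mul_le_mul_of_nonneg_right (by omega) (by omega)
            _ = 4 ^ n0 * Q * K1 * k := by ring
            _ ≤ w := hKw
        exact_mod_cast this
      have t2 : C2 * ((L M : ℝ) / l) ^ α ≤ c' * δ / 4 := by
        refine le_trans (le_of_eq ?_) hM
        congr 2
        have h5 : (l : ℝ) = 4 ^ M * (L M : ℝ) := by
          have h7 : m = M + (m - M) := by omega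
          have h8 : (4 : ℝ) ^ m = 4 ^ M * 4 ^ (m - M) := by rw [← pow_add, ← h7]
          rw [hl, hL]
          push_cast
          rw [h8]
          ring
        have h6 : (0 : ℝ) < L M := by exact_mod_cast (by omega : 0 < L M)
        rw [h5, one_div, inv_pow]
        field_simp
      have hR := hRND k w u (4 ^ n0 * Q * k) x0 ρ l ψ Λ _ hk hl1 (by omega) hl16 (by omega)
        (fun x hx => by have := hs x hx; omega) ?_ hΛ.le
        (fun S' h => hSM S' u (2 * w) (4 * l) k ψ hk (by omega) h hψ hs') hB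
      · rw [e16]
        refine Cn_mono ?_ hR
        rw [ha, pow_succ]
        nlinarith
      · have : 0 ≤ (1 - c') * a := mul_nonneg (by linarith) ha0
        have h5 : (0 : ℝ) ≤ (l : ℝ) / w := by positivity
        have h6 : (0 : ℝ) ≤ ((L M : ℝ) / l) ^ α := by
          have : (0 : ℝ) ≤ L M := by exact_mod_cast (by omega : 0 ≤ L M)
          positivity
        have h7 := mul_nonneg hC1.le h5
        have h8 := mul_nonneg hC2.le h6
        linarith
  have hfin := main i n0 hn0.ge le_rfl S (by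
    have e : (4 : ℤ) ^ n0 * (Q * k) = 4 ^ n0 * Q * k := by ring
    rw [e]; exact hTA) (by
    have e : (4 : ℤ) ^ n0 * (Q * k) = 4 ^ n0 * Q * k := by ring
    rw [e]; exact hF) he
  refine hfin.trans ?_
  have : ((1 - c') ^ i * Λ + δ / 2) * (k : ℝ) ≤ δ * k :=
    mul_le_mul_of_nonneg_right (by linarith) (by positivity)
  linarith

end Vale.Agent.P167.H704
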